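import Vale.Agent.P050.O.H322.Kpow
import Vale.Agent.P050.O.H261.Comp
import Mathlib.Order.CompleteLattice.Finset

set_option linter.all false

/-!
Long subdivisions of all graphs of bounded degree, against every graph: assembly.
-/

open MeasureTheory Finset

namespace Vale.Agent.P050.Opt.H774

open Vale.Agent.P050 Vale.Agent.P050.Dense Vale.Agent.P050.Opt

/-- J2: the density of a subdivision -/
def StSub : Prop :=
  ∀ (V X : Type) [Fintype V] [DecidableEq V] [Fintype X] [DecidableEq X] [Nonempty X]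
    (F : SimpleGraph V) [DecidableRel F.Adj] (ℓ : ℕ) (_ : 1 ≤ ℓ)
    [Fintype (V ⊕ (F.edgeSet × Fin (ℓ - 1)))] [DecidableEq (V ⊕ (F.edgeSet × Fin (ℓ - 1)))]
    [DecidableRel (subdiv ℓ F).Adj] (W : X → X → ℝ) (hs : ∀ x y, W x y = W y x),
    tden (subdiv ℓ F) W hs = tden F (kpow W ℓ) (kpow_symm hs ℓ)

/-- J3: the 1-subdivision, number of edges -/
def StCard : Prop :=
  ∀ (V : Type) [Finite V] (F : SimpleGraph V),
    Nat.card (subdiv 2 F).edgeSet = 2 * Nat.card F.edgeSet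

/-- J4: even powers -/
def StEven : Prop :=
  ∀ (X : Type) [Fintype X] [DecidableEq X] [Nonempty X] (W : X → X → ℝ)
    (_ : ∀ x y, W x y = W y x) (_ : ∀ x y, 0 ≤ W x y) (k : ℕ) (_ : 1 ≤ k),
    pden W ^ (2 * k) ≤ pden (kpow W (2 * k))

/-- J5: even powers are nearly of rank one on the classes -/
def StNear : Prop :=
  ∀ (X : Type) [Fintype X] [DecidableEq X] (A : Matrix X X ℝ) (_ : ∀ x y, A x y = A y x)
    (_ : ∀ x y, 0 ≤ A x y) (ε : ℝ) (_ : 0 < ε),
    ∃ k0 : ℕ, ∀ k ≥ k0, ∀ x y, (∃ j : ℕ, 0 < (A ^ (2 * j)) x y) →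
      (A ^ (2 * k)) x y * (∑ a, ∑ b, (open scoped Classical in
        if (∃ j : ℕ, 0 < (A ^ (2 * j)) x a) ∧ (∃ j : ℕ, 0 < (A ^ (2 * j)) x b)
        then (A ^ (2 * k)) a b else 0)) ≤
      (1 + ε) * ((∑ b, (A ^ (2 * k)) x b) * ∑ b, (A ^ (2 * k)) y b)

/-- J3: the 1-subdivision is bipartite -/
def StBip : Prop := ∀ (V : Type) (F : SimpleGraph V), (subdiv 2 F).IsBipartite

/-- J3: the degrees of the 1-subdivision -/
def StDeg : Prop :=
  ∀ (V : Type) [Finite V] (F : SimpleGraph V) (D : ℕ) (_ : ∀ v, (F.neighborSet v).ncard ≤ D)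
    (x), ((subdiv 2 F).neighborSet x).ncard ≤ D + 2

/-- J8: block diagonal kernels, blocks dominated by rank one kernels -/
def StBlock : Prop :=
  ∀ (V X ι : Type) [Fintype V] [DecidableEq V] [Fintype X] [DecidableEq X] [Nonempty X]
    [Fintype ι] [DecidableEq ι] (H : SimpleGraph V)
    [DecidableRel H.Adj] (_ : H.IsBipartite) (_ : H.Connected) (D : ℕ) (_ : 1 ≤ D)
    (_ : ∀ v, (H.neighborSet v).ncard ≤ D) (η : ℝ) (_ : 0 ≤ η)
    (_ : 10 ^ 13 * (D:ℝ) * η ≤ 1) (W : X → X → ℝ) (hs : ∀ x y, W x y = W y x)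
    (_ : ∀ x y, 0 ≤ W x y) (b : X → ι) (_ : ∀ x y, b x ≠ b y → W x y = 0)
    (_ : ∀ x y, b x = b y → W x y * (∑ a ∈ univ.filter (fun a => b a = b x),
      ∑ c ∈ univ.filter (fun c => b c = b x), W a c) ≤
        (1 + η) * ((∑ c, W x c) * ∑ c, W y c)),
    pden W ^ H.edgeFinset.card ≤ tden H W hs

section

variable {X : Type} [Fintype X] [DecidableEq X]

theorem of_kpow (W : X → X → ℝ) (a : ℕ) :
    Matrix.of (kpow W a) = ((Fintype.card X : ℝ) ^ (a - 1))⁻¹ • (Matrix.of W) ^ a := by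
  ext x y
  simp only [Matrix.of_apply, Matrix.smul_apply, smul_eq_mul, kpow]
  rw [div_eq_inv_mul]

/-- powers of powers -/
theorem kpow_kpow [Nonempty X] (W : X → X → ℝ) {a b : ℕ} (ha : 1 ≤ a) (hb : 1 ≤ b) :
    kpow (kpow W a) b = kpow W (a * b) := by
  have hn : (Fintype.card X : ℝ) ≠ 0 := by
    have := Fintype.card_pos (α := X)
    positivity
  funext x y
  rw [kpow, of_kpow, smul_pow, ← pow_mul, Matrix.smul_apply, smul_eq_mul, kpow]
  obtain ⟨a, rfl⟩ := Nat.exists_eq_add_of_le' ha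
  obtain ⟨b, rfl⟩ := Nat.exists_eq_add_of_le' hb
  have h1 : (a + 1) * (b + 1) - 1 = a * (b + 1) + b := by
    have : (a + 1) * (b + 1) = a * (b + 1) + b + 1 := by ring
    omega
  rw [h1, Nat.add_sub_cancel, Nat.add_sub_cancel, inv_pow]
  field_simp
  ring

theorem pow_entry_nonneg {A : Matrix X X ℝ} (h0 : ∀ x y, 0 ≤ A x y) (m : ℕ) (x y : X) :
    0 ≤ (A ^ m) x y := by
  induction m generalizing x y with
  | zero => rw [pow_zero, Matrix.one_apply]; split_ifs <;> norm_num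
  | succ m ih =>
    rw [pow_succ, Matrix.mul_apply]
    exact Finset.sum_nonneg fun z _ => mul_nonneg (ih x z) (h0 z y)

theorem pow_entry_symm {A : Matrix X X ℝ} (hs : ∀ x y, A x y = A y x) (m : ℕ) (x y : X) :
    (A ^ m) x y = (A ^ m) y x := by
  have h : A.transpose = A := by
    ext x y
    exact hs y x
  have h2 : (A ^ m).transpose = A ^ m := by rw [Matrix.transpose_pow, h]
  calc (A ^ m) x y = (A ^ m).transpose y x := rfl
    _ = (A ^ m) y x := by rw [h2]

/-- two vertices joined by a walk of even length -/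
def Rel (A : Matrix X X ℝ) (x y : X) : Prop := ∃ j : ℕ, 0 < (A ^ (2 * j)) x y

theorem rel_refl (A : Matrix X X ℝ) (x : X) : Rel A x x :=
  ⟨0, by rw [Nat.mul_zero, pow_zero, Matrix.one_apply_eq]; norm_num⟩

theorem rel_symm {A : Matrix X X ℝ} (hs : ∀ x y, A x y = A y x) {x y : X} (h : Rel A x y) :
    Rel A y x := by
  obtain ⟨j, hj⟩ := h
  exact ⟨j, by rw [pow_entry_symm hs]; exact hj⟩

theorem rel_trans {A : Matrix X X ℝ} (h0 : ∀ x y, 0 ≤ A x y) {x y z : X} (h : Rel A x y)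
    (h' : Rel A y z) : Rel A x z := by
  obtain ⟨i, hi⟩ := h
  obtain ⟨j, hj⟩ := h'
  refine ⟨i + j, ?_⟩
  rw [Nat.mul_add, pow_add, Matrix.mul_apply]
  exact lt_of_lt_of_le (mul_pos hi hj) (Finset.single_le_sum
    (f := fun t => (A ^ (2 * i)) x t * (A ^ (2 * j)) t z)
    (fun t _ => mul_nonneg (pow_entry_nonneg h0 _ _ _) (pow_entry_nonneg h0 _ _ _))
    (Finset.mem_univ y))

open scoped Classical in
/-- the class of `x` -/
noncomputable def cls (A : Matrix X X ℝ) (x : X) : Finset X := univ.filter (fun y => Rel A x y)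

theorem mem_cls {A : Matrix X X ℝ} {x y : X} : y ∈ cls A x ↔ Rel A x y := by
  classical
  rw [cls, Finset.mem_filter]
  simp

theorem cls_eq_iff {A : Matrix X X ℝ} (hs : ∀ x y, A x y = A y x) (h0 : ∀ x y, 0 ≤ A x y)
    {x y : X} : cls A y = cls A x ↔ Rel A x y := by
  constructor
  · intro h
    rw [← mem_cls, ← h, mem_cls]
    exact rel_refl A y
  · intro h
    ext z
    rw [mem_cls, mem_cls]
    exact ⟨fun h' => rel_trans h0 h h', fun h' => rel_trans h0 (rel_symm hs h) h'⟩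

end

/-- the inequality for the graph `H` and all kernels which are block diagonal with blocks
dominated by a rank one kernel -/
def BlockIneq {V : Type} [Fintype V] [DecidableEq V] (H : SimpleGraph V) [DecidableRel H.Adj]
    (η : ℝ) (X : Type) [Fintype X] [DecidableEq X] : Prop :=
  ∀ (W : X → X → ℝ) (hs : ∀ x y, W x y = W y x)
    (h0 : ∀ x y, 0 ≤ W x y) (b : X → Finset X) (hb : ∀ x y, b x ≠ b y → W x y = 0)
    (hcl : ∀ x y, b x = b y → W x y * (∑ a ∈ univ.filter (fun a => b a = b x),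
      ∑ c ∈ univ.filter (fun c => b c = b x), W a c) ≤
        (1 + η) * ((∑ c, W x c) * ∑ c, W y c)),
    pden W ^ H.edgeFinset.card ≤ tden H W hs

section

variable {X : Type} [Fintype X] [DecidableEq X]

/-- the even powers of a kernel satisfy the hypotheses of `BlockIneq` -/
theorem long_core (h4 : StEven) (h5 : StNear) [Nonempty X] (W : X → X → ℝ) (hs : ∀ x y, W x y = W y x)
    (h0 : ∀ x y, 0 ≤ W x y) {η : ℝ} (hη : 0 < η) :
    ∃ L : ℕ, 1 ≤ L ∧ ∀ k ≥ L, ∀ (V : Type) [Fintype V] [DecidableEq V] (H : SimpleGraph V)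
      [DecidableRel H.Adj], BlockIneq H η X →
      pden W ^ (2 * k * H.edgeFinset.card) ≤ tden H (kpow W (2 * k)) (kpow_symm hs (2 * k)) := by
  classical
  obtain ⟨k0, hk0⟩ := h5 X (Matrix.of W) (fun x y => hs x y) (fun x y => h0 x y) η hη
  refine ⟨max k0 1, le_max_right _ _, fun k hk V _ _ H _ hB => ?_⟩
  have hk1 : 1 ≤ k := le_trans (le_max_right _ _) hk
  have hkk : k0 ≤ k := le_trans (le_max_left _ _) hk
  set A : Matrix X X ℝ := Matrix.of W with hA
  have hsA : ∀ x y, A x y = A y x := fun x y => hs x y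
  have h0A : ∀ x y, 0 ≤ A x y := fun x y => h0 x y
  have hn : (0:ℝ) < (Fintype.card X : ℝ) ^ (2 * k - 1) := by
    have := Fintype.card_pos (α := X)
    positivity
  set N : ℝ := (Fintype.card X : ℝ) ^ (2 * k - 1) with hN
  have hK : ∀ x y, kpow W (2 * k) x y = (A ^ (2 * k)) x y / N := fun x y => rfl
  have hKnn : ∀ x y, 0 ≤ kpow W (2 * k) x y := fun x y => by
    rw [hK]
    exact div_nonneg (pow_entry_nonneg h0A _ _ _) hn.le
  have hmain := hB (kpow W (2 * k)) (kpow_symm hs (2 * k)) hKnn (cls A) ?_ ?_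
  · refine le_trans ?_ hmain
    rw [pow_mul]
    exact pow_le_pow_left₀ (pow_nonneg (div_nonneg (Finset.sum_nonneg fun x _ =>
      Finset.sum_nonneg fun y _ => h0 x y) (by positivity)) _) (h4 X W hs h0 k hk1) _
  · intro x y hxy
    by_contra hne
    refine hxy ((cls_eq_iff hsA h0A).mpr (rel_symm hsA ⟨k, ?_⟩))
    have h1 : (A ^ (2 * k)) x y ≠ 0 := fun h => hne (by rw [hK, h, zero_div])
    exact lt_of_le_of_ne (pow_entry_nonneg h0A _ _ _) h1.symm
  · intro x y hxy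
    have hr : Rel A x y := (cls_eq_iff hsA h0A).mp hxy.symm
    have h2 := hk0 k hkk x y hr
    have h3 : ∑ a ∈ univ.filter (fun a => cls A a = cls A x),
        ∑ c ∈ univ.filter (fun c => cls A c = cls A x), kpow W (2 * k) a c
        = (∑ a, ∑ b, if (∃ j : ℕ, 0 < (A ^ (2 * j)) x a) ∧ (∃ j : ℕ, 0 < (A ^ (2 * j)) x b)
          then (A ^ (2 * k)) a b else 0) / N := by
      rw [Finset.sum_filter, Finset.sum_div]
      refine Finset.sum_congr rfl fun a _ => ?_
      rw [Finset.sum_filter, Finset.sum_div]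
      by_cases ha : cls A a = cls A x
      · rw [if_pos ha]
        refine Finset.sum_congr rfl fun c _ => ?_
        by_cases hc : cls A c = cls A x
        · rw [if_pos hc, if_pos ⟨(cls_eq_iff hsA h0A).mp ha, (cls_eq_iff hsA h0A).mp hc⟩, hK]
        · rw [if_neg hc, if_neg fun h => hc ((cls_eq_iff hsA h0A).mpr h.2), zero_div]
      · rw [if_neg ha]
        symm
        refine Finset.sum_eq_zero fun c _ => ?_
        rw [if_neg fun h => ha ((cls_eq_iff hsA h0A).mpr h.1), zero_div]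
    have h4 : ∀ z, ∑ c, kpow W (2 * k) z c = (∑ c, (A ^ (2 * k)) z c) / N := fun z => by
      rw [Finset.sum_div]
      exact Finset.sum_congr rfl fun c _ => hK z c
    rw [h3, h4, h4, hK]
    have h5 : (A ^ (2 * k)) x y / N * ((∑ a, ∑ b, if (∃ j : ℕ, 0 < (A ^ (2 * j)) x a) ∧
          (∃ j : ℕ, 0 < (A ^ (2 * j)) x b) then (A ^ (2 * k)) a b else 0) / N)
        = ((A ^ (2 * k)) x y * (∑ a, ∑ b, if (∃ j : ℕ, 0 < (A ^ (2 * j)) x a) ∧
          (∃ j : ℕ, 0 < (A ^ (2 * j)) x b) then (A ^ (2 * k)) a b else 0)) / (N * N) := by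
      rw [div_mul_div_comm]
    have h6 : (1 + η) * ((∑ c, (A ^ (2 * k)) x c) / N * ((∑ c, (A ^ (2 * k)) y c) / N))
        = ((1 + η) * ((∑ b, (A ^ (2 * k)) x b) * ∑ b, (A ^ (2 * k)) y b)) / (N * N) := by
      have key : ∀ S T : ℝ, (1 + η) * (S / N * (T / N)) = ((1 + η) * (S * T)) / (N * N) :=
        fun S T => by rw [div_mul_div_comm]; ring
      exact key _ _
    rw [h5, h6]
    refine div_le_div_of_nonneg_right ?_ (mul_pos hn hn).le
    exact h2
end

open scoped Classical in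
/-- bipartite graphs `F`, all even lengths -/
theorem long_kernel_bip (j2 : StSub) (j4 : StEven) (j5 : StNear) {X : Type} [Fintype X]
    [DecidableEq X] [Nonempty X] (W : X → X → ℝ)
    (hs : ∀ x y, W x y = W y x) (h0 : ∀ x y, 0 ≤ W x y) {η : ℝ} (hη : 0 < η) :
    ∃ L : ℕ, 1 ≤ L ∧ ∀ k ≥ L, ∀ (V : Type) [Fintype V] (F : SimpleGraph V),
      BlockIneq F η X →
      pden W ^ (2 * k * Nat.card F.edgeSet) ≤ tden (subdiv (2 * k) F) W hs := by
  obtain ⟨L, hL1, hL⟩ := long_core j4 j5 W hs h0 hη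
  refine ⟨L, hL1, fun k hk V _ F hB => ?_⟩
  have hk1 : 1 ≤ k := le_trans hL1 hk
  have h1 := hL k hk _ F hB
  have h2 : F.edgeFinset.card = Nat.card F.edgeSet := by
    rw [Nat.card_eq_fintype_card, SimpleGraph.edgeFinset_card]
  rw [h2] at h1
  refine le_trans h1 (le_of_eq ?_)
  rw [j2 V X F (2 * k) (by omega) W hs]

open scoped Classical in
/-- the core, in terms of `H = subdiv 2 F` -/
theorem long_kernel (j2 : StSub) (j3 : StCard) (j4 : StEven) (j5 : StNear) {X : Type} [Fintype X] [DecidableEq X] [Nonempty X] (W : X → X → ℝ)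
    (hs : ∀ x y, W x y = W y x) (h0 : ∀ x y, 0 ≤ W x y) {η : ℝ} (hη : 0 < η) :
    ∃ L : ℕ, 1 ≤ L ∧ ∀ k ≥ L, ∀ (V : Type) [Fintype V] (F : SimpleGraph V),
      BlockIneq (subdiv 2 F) η X →
      pden W ^ (4 * k * Nat.card F.edgeSet) ≤ tden (subdiv (4 * k) F) W hs := by
  obtain ⟨L, hL1, hL⟩ := long_core j4 j5 W hs h0 hη
  refine ⟨L, hL1, fun k hk V _ F hB => ?_⟩
  have hk1 : 1 ≤ k := le_trans hL1 hk
  have h1 := hL k hk _ (subdiv 2 F) hB
  have h2 : (subdiv 2 F).edgeFinset.card = 2 * Nat.card F.edgeSet := by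
    rw [← j3 V F, Nat.card_eq_fintype_card, SimpleGraph.edgeFinset_card]
  have h3 : 2 * k * (subdiv 2 F).edgeFinset.card = 4 * k * Nat.card F.edgeSet := by
    rw [h2]; ring
  rw [h3] at h1
  refine le_trans h1 (le_of_eq ?_)
  rw [j2 V X F 2 (by norm_num) (kpow W (2 * k)) (kpow_symm hs (2 * k)),
    j2 V X F (4 * k) (by omega) W hs]
  have h4 : kpow (kpow W (2 * k)) 2 = kpow W (4 * k) := by
    rw [kpow_kpow W (by omega) (by norm_num)]
    congr 1
    ring
  have h5 : ∀ (K K' : X → X → ℝ) (a : ∀ x y, K x y = K y x) (b : ∀ x y, K' x y = K' y x),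
      K = K' → tden F K a = tden F K' b := by
    intro K K' a b h
    subst h
    rfl
  exact h5 _ _ _ _ h4

/-- the inequality for all graphs of bounded degree, target fixed -/
theorem long_subdiv_one (j2 : StSub) (j3 : StCard) (j4 : StEven) (j5 : StNear)
    (jb : StBip) (jd : StDeg) (j8 : StBlock) {X : Type} [Finite X] [Nonempty X]
    (G : SimpleGraph X) (D : ℕ) :
    ∃ L : ℕ, ∀ ℓ ≥ L, Even ℓ → ∀ (V : Type) [Finite V] (F : SimpleGraph V),
      (∀ v, (F.neighborSet v).ncard ≤ D) → (F.IsBipartite ∨ 4 ∣ ℓ) →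
      edgeDensity G ^ (ℓ * Nat.card F.edgeSet) ≤ homDensity (subdiv ℓ F) G := by
  classical
  have hD : (0:ℝ) < 10 ^ 13 * ((D + 2 : ℕ) : ℝ) := by positivity
  have := Fintype.ofFinite X
  have hpos : ∀ x y, 0 ≤ adjK G x y := fun x y => by unfold adjK; split_ifs <;> norm_num
  have hB : ∀ (V : Type) [Fintype V] [DecidableEq V] (H : SimpleGraph V) [DecidableRel H.Adj],
      H.IsBipartite → (∀ v, (H.neighborSet v).ncard ≤ D + 2) →
      BlockIneq H (10 ^ 13 * ((D + 2 : ℕ) : ℝ))⁻¹ X := by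
    intro V _ _ H _ hH hd W hs h0 b hb hcl
    refine H261.pden_le_of_conn H hs h0 (fun c => ?_)
    intro _ _ _
    exact j8 _ X _ _ (H261.induce_bip hH _) (H261.comp_conn _ c) (D + 2) (by omega)
      (H261.induce_deg hd _) _ (inv_pos.mpr hD).le
      (by rw [mul_inv_cancel₀ hD.ne']) W hs h0 b hb hcl
  obtain ⟨L₁, -, hL₁⟩ := long_kernel j2 j3 j4 j5 (adjK G) (adjK_symm G) hpos (inv_pos.mpr hD)
  obtain ⟨L₂, -, hL₂⟩ := long_kernel_bip j2 j4 j5 (adjK G) (adjK_symm G) hpos (inv_pos.mpr hD)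
  refine ⟨4 * (L₁ + L₂), fun ℓ hℓ he V _ F hF hor => ?_⟩
  have := Fintype.ofFinite V
  rcases hor with hbip | hdvd
  · obtain ⟨k, rfl⟩ := he
    have hk : k + k = 2 * k := by ring
    rw [hk] at hℓ ⊢
    have h1 := hL₂ k (by omega) V F (hB V F hbip fun v => le_trans (hF v) (by omega))
    rw [pden_adjK] at h1
    rw [← tden_adjK]
    convert h1 using 1
  · obtain ⟨k, rfl⟩ := hdvd
    have h1 := hL₁ k (by omega) V F (hB _ (subdiv 2 F) (jb V F) (jd V F D hF))
    rw [pden_adjK] at h1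
    rw [← tden_adjK]
    convert h1 using 1

/-- J9: **long subdivisions** of all graphs of maximum degree at most `D`, against all graphs
with at most `n` vertices -/
theorem long_subdiv_of_rows (j2 : StSub) (j3 : StCard) (j4 : StEven) (j5 : StNear)
    (jb : StBip) (jd : StDeg) (j8 : StBlock) (n D : ℕ) :
    ∃ L : ℕ, ∀ ℓ ≥ L, Even ℓ → ∀ (X : Type) [Finite X] [Nonempty X] (G : SimpleGraph X),
      Nat.card X ≤ n → ∀ (V : Type) [Finite V] (F : SimpleGraph V),
      (∀ v, (F.neighborSet v).ncard ≤ D) → (F.IsBipartite ∨ 4 ∣ ℓ) →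
      edgeDensity G ^ (ℓ * Nat.card F.edgeSet) ≤ homDensity (subdiv ℓ F) G := by
  classical
  have h1 : ∀ p : (Σ m : Fin (n + 1), SimpleGraph (Fin m.1)), ∃ L : ℕ, 0 < p.1.1 →
      ∀ ℓ ≥ L, Even ℓ → ∀ (V : Type) [Finite V] (F : SimpleGraph V),
      (∀ v, (F.neighborSet v).ncard ≤ D) → (F.IsBipartite ∨ 4 ∣ ℓ) →
      edgeDensity p.2 ^ (ℓ * Nat.card F.edgeSet) ≤ homDensity (subdiv ℓ F) p.2 := by
    rintro ⟨⟨m, hm⟩, G⟩
    by_cases hm0 : 0 < m
    · have : Nonempty (Fin m) := ⟨⟨0, hm0⟩⟩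
      obtain ⟨L, hL⟩ := long_subdiv_one j2 j3 j4 j5 jb jd j8 G D
      exact ⟨L, fun _ => hL⟩
    · exact ⟨0, fun h => absurd h hm0⟩
  choose f hf using h1
  obtain ⟨M, hM⟩ := Finite.exists_le f
  refine ⟨M, fun ℓ hℓ he X _ _ G hX V _ F hF hor => ?_⟩
  let e : X ≃ Fin (Nat.card X) := Finite.equivFin X
  let G' : SimpleGraph (Fin (Nat.card X)) := G.map e.toEmbedding
  let ψ : G ≃g G' := SimpleGraph.Iso.map e G
  rw [homDensity_iso _ ψ, edgeDensity_iso ψ]
  exact hf ⟨⟨Nat.card X, by omega⟩, G'⟩ Nat.card_pos ℓ (le_trans (hM _) hℓ) he V F hF hor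

end Vale.Agent.P050.Opt.H774
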