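import Vale.Agent.P050.O.H774.LongFinal
import Vale.Agent.P050.O.H322.BipCL

set_option linter.all false

/-!
The base class in the form `CLIneq`.
-/

open MeasureTheory Finset

namespace Vale.Agent.P050.Opt.H774

open Vale.Agent.P050 Vale.Agent.P050.Dense Vale.Agent.P050.Opt

/-- connected bipartite graphs of maximum degree at most `D` -/
theorem clIneq_conn {V : Type} [Fintype V] [DecidableEq V] (H : SimpleGraph V)
    [DecidableRel H.Adj] (hH : H.IsBipartite) (hc : H.Connected) {D : ℕ} (hD1 : 1 ≤ D)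
    (hD : ∀ v, (H.neighborSet v).ncard ≤ D) : CLIneq D H := by
  intro X _ _ _ η hη0 hη W hs h0 hrow hcl
  refine stBlock V X Unit H hH hc D hD1 hD η hη0 hη W hs h0 (fun _ => ())
    (fun x y h => absurd rfl h) fun x y _ => ?_
  simpa using hcl x y

/-- bipartite graphs of maximum degree at most `D` -/
theorem clIneq_base {V : Type} [Fintype V] [DecidableEq V] (H : SimpleGraph V)
    [DecidableRel H.Adj] (hH : H.IsBipartite) {D : ℕ} (hD1 : 1 ≤ D)
    (hD : ∀ v, (H.neighborSet v).ncard ≤ D) : CLIneq D H := by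
  intro X _ _ _ η hη0 hη W hs h0 hrow hcl
  refine H261.pden_le_of_conn H hs h0 (fun c => ?_)
  intro _ _ _
  exact clIneq_conn _ (H261.induce_bip hH _) (H261.comp_conn H c) hD1 (H261.induce_deg hD _) X η
    hη0 hη W hs h0 hrow hcl

end Vale.Agent.P050.Opt.H774
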