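import Vale.Agent.P050.O.H774.LongAll
import Vale.Agent.P050.O.H774.CLBase
import Vale.Agent.P050.O.H694.ClassIneq
import Vale.Agent.P050.O.H322.KpowCls
import Vale.Agent.P050.O.H111.BlakleyRoy

set_option linter.all false

/-!
Long subdivisions, all lengths: the kernel inequality.
-/

open MeasureTheory Finset

namespace Vale.Agent.P050.Opt.H774

open Vale.Agent.P050 Vale.Agent.P050.Dense Vale.Agent.P050.Opt

/-- one power of a kernel which joins each class to one class only and is close to a kernel of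
rank one between the classes; `H` bipartite of maximum degree at most `D` -/
theorem kernel_at {V X κ : Type} [Fintype V] [DecidableEq V] [Fintype X] [DecidableEq X]
    [Nonempty X] [DecidableEq κ] (H : SimpleGraph V) [DecidableRel H.Adj] (hH : H.IsBipartite)
    {D : ℕ} (hD1 : 1 ≤ D) (hD : ∀ v, (H.neighborSet v).ncard ≤ D) {η : ℝ} (hη0 : 0 ≤ η)
    (hη : 3 * 10 ^ 13 * (D:ℝ) * η ≤ 1) (W : X → X → ℝ) (hs : ∀ x y, W x y = W y x)
    (h0 : ∀ x y, 0 ≤ W x y) {k : ℕ} (hk : 1 ≤ k) (C : X → κ)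
    (h2 : ∀ x x1 y y1, C x = C x1 → kpow W k x y ≠ 0 → kpow W k x1 y1 ≠ 0 → C y = C y1)
    (h3 : ∀ x y, kpow W k x y * (∑ a ∈ univ.filter (fun a => C a = C x), ∑ c, kpow W k a c) ≤
      (1 + η) * ((∑ c, kpow W k x c) * ∑ c, kpow W k y c)) :
    pden W ^ (k * H.edgeFinset.card) ≤ tden H (kpow W k) (kpow_symm hs k) := by
  have hnn : ∀ x y, 0 ≤ kpow W k x y := fun x y =>
    div_nonneg (pow_entry_nonneg (fun x y => h0 x y) _ _ _) (by positivity)
  have hp : 0 ≤ pden W := by
    unfold pden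
    exact div_nonneg (Finset.sum_nonneg fun x _ => Finset.sum_nonneg fun y _ => h0 x y)
      (by positivity)
  have h4 : pden (kpow W k) ^ H.edgeFinset.card ≤ tden H (kpow W k) (kpow_symm hs k) := by
    refine H261.pden_le_of_conn H (kpow_symm hs k) hnn (fun c => ?_)
    intro _ _ _
    exact H694.class_ineq _ (H261.induce_bip hH _) (H261.comp_conn H c) hD1
      (clIneq_conn _ (H261.induce_bip hH _) (H261.comp_conn H c) hD1 (H261.induce_deg hD _))
      hη0 hη (kpow W k) (kpow_symm hs k) hnn C h2 h3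
  refine le_trans ?_ h4
  rw [pow_mul]
  exact pow_le_pow_left₀ (pow_nonneg hp _) (H111.pden_kpow hs h0 hk) _

theorem stK : StK := by
  intro X _ _ _ W hs h0 D
  have hD : (0:ℝ) < 3 * 10 ^ 13 * ((D + 1 : ℕ) : ℝ) := by positivity
  obtain ⟨L, hL1, hL⟩ := kpow_cls W hs h0 (inv_pos.mpr hD)
  refine ⟨L, fun k hk V _ _ H _ hH hd => ?_⟩
  obtain ⟨h2, h3⟩ := hL k hk
  exact kernel_at H hH (D := D + 1) (by omega) (fun v => le_trans (hd v) (by omega))
    (inv_pos.mpr hD).le (by rw [mul_inv_cancel₀ hD.ne']) W hs h0 (le_trans hL1 hk)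
    (cls (Matrix.of W)) h2 h3

/-- **Long subdivisions.** For all `n`, `D` there is `L` such that every bipartite subdivision
`F_ℓ`, `ℓ ≥ L`, of a graph `F` of maximum degree at most `D` satisfies the inequality against all
graphs with at most `n` vertices. -/
theorem long_subdiv_all (n D : ℕ) :
    ∃ L : ℕ, ∀ ℓ ≥ L, ∀ (X : Type) [Finite X] [Nonempty X] (G : SimpleGraph X),
      Nat.card X ≤ n → ∀ (V : Type) [Finite V] (F : SimpleGraph V),
      (∀ v, (F.neighborSet v).ncard ≤ D) → (subdiv ℓ F).IsBipartite →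
      edgeDensity G ^ Nat.card (subdiv ℓ F).edgeSet ≤ homDensity (subdiv ℓ F) G :=
  long_all_of stK n D

end Vale.Agent.P050.Opt.H774
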