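import Vale.Agent.P050.O.H322.Subdiv
import Mathlib.Combinatorics.SimpleGraph.Bipartite

set_option linter.all false

namespace Vale.Agent.P050.Opt.H774

open Vale.Agent.P050 Vale.Agent.P050.Opt

/-- the 1-subdivision is bipartite -/
theorem subdiv_two_bip {V : Type} (F : SimpleGraph V) : (subdiv 2 F).IsBipartite := by
  have h0 : ∀ (e : F.edgeSet) (i : ℕ), i < 2 →
      (node F 2 e i).isLeft ≠ (node F 2 e (i + 1)).isLeft := by
    intro e i hi
    interval_cases i
    · simp [node]
    · simp [node]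
  refine ⟨SimpleGraph.Coloring.mk (fun x => (if x.isLeft then (0 : Fin 2) else 1)) ?_⟩
  intro x y h
  have h1 : x.isLeft ≠ y.isLeft := by
    rcases (SimpleGraph.fromRel_adj _ _ _).mp h with ⟨-, ⟨e, i, hi, rfl, rfl⟩ | ⟨e, i, hi, rfl, rfl⟩⟩
    · exact h0 e i hi
    · exact (h0 e i hi).symm
  cases hx : x.isLeft <;> cases hy : y.isLeft <;> simp_all

end Vale.Agent.P050.Opt.H774
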