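import Vale.Agent.P050.O.H774.LongSub
import Vale.Agent.P050.O.H774.SubBip
import Vale.Agent.P050.O.H322.SubCard
import Vale.Agent.P050.O.H111.NearBlock
import Vale.Agent.P050.O.H694.BlockRank1
import Vale.Agent.P050.O.H234.EntBlock
import Vale.Agent.P050.O.H738.EntBaseWt
import Vale.Agent.P050.O.H261.Walk

set_option linter.all false

/-!
Long subdivisions of all graphs of bounded degree, against every graph: the rows are plugged in.
-/

open MeasureTheory Finset

namespace Vale.Agent.P050.Opt.H774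

open Vale.Agent.P050 Vale.Agent.P050.Dense Vale.Agent.P050.Opt

theorem stSub : StSub := fun V X _ _ _ _ _ F _ ℓ hℓ _ _ _ W hs => tden_subdiv F hℓ W hs

theorem stNear : StNear := fun X _ _ A hs h0 ε hε => near_block A hs h0 hε

theorem stCard : StCard := fun V _ F => H322.subdiv_two_card F

theorem stDeg : StDeg := fun V _ F D h x => H322.subdiv_two_deg h x

theorem stBip : StBip := fun V F => subdiv_two_bip F

theorem stEven : StEven := fun X _ _ _ W hs h0 k hk => H261.pden_kpow_even hs h0 hk

theorem stBlock : StBlock :=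
  fun V X ι _ _ _ _ _ _ _ H _ hH hc D hD1 hD η hη0 hη W hs h0 b hb hcl =>
    H694.block_rank1_of H (η := η)
      (fun {_} {_} _ _ _ _ {_} {_} hw b hb hE => ent_block H hc hw b hb hE)
      (fun {_} _ _ {_} {_} hw hU => H738BW.ent_base_wt H hH hD1 hD hw hη0 hη hU)
      W hs h0 b hb hcl

/-- **Long subdivisions**, target fixed. -/
theorem long_subdiv_fixed {X : Type} [Finite X] [Nonempty X] (G : SimpleGraph X) (D : ℕ) :
    ∃ L : ℕ, ∀ ℓ ≥ L, Even ℓ → ∀ (V : Type) [Finite V] (F : SimpleGraph V),
      (∀ v, (F.neighborSet v).ncard ≤ D) → (F.IsBipartite ∨ 4 ∣ ℓ) →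
      edgeDensity G ^ (ℓ * Nat.card F.edgeSet) ≤ homDensity (subdiv ℓ F) G :=
  long_subdiv_one stSub stCard stEven stNear stBip stDeg stBlock G D

/-- **Long subdivisions** of all graphs of maximum degree at most `D`, against all graphs with at
most `n` vertices. -/
theorem long_subdiv (n D : ℕ) :
    ∃ L : ℕ, ∀ ℓ ≥ L, Even ℓ → ∀ (X : Type) [Finite X] [Nonempty X] (G : SimpleGraph X),
      Nat.card X ≤ n → ∀ (V : Type) [Finite V] (F : SimpleGraph V),
      (∀ v, (F.neighborSet v).ncard ≤ D) → (F.IsBipartite ∨ 4 ∣ ℓ) →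
      edgeDensity G ^ (ℓ * Nat.card F.edgeSet) ≤ homDensity (subdiv ℓ F) G :=
  long_subdiv_of_rows stSub stCard stEven stNear stBip stDeg stBlock n D

end Vale.Agent.P050.Opt.H774
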