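import Vale.Agent.P050.O.H774.ClMeas
import Vale.Agent.P050.O.H625.AsmMono

set_option linter.all false

/-!
Measurable kernels which are close from above to the kernel of rank one with the same degrees,
assembled graphs.
-/

open MeasureTheory Finset

namespace Vale.Agent.P050.Opt

open Vale.Agent.P050 Vale.Agent.P050.Dense Vale.Agent.P050.H753

/-- the statement of `ent_asm` -/
def EntAsm : Prop :=
  ∀ {D : ℕ} {V Ω : Type} [Fintype Ω] [DecidableEq Ω]
    [MeasurableSpace Ω] [MeasurableSingletonClass Ω] {H : SimpleGraph V} (_ : Assembled D V H)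
    (μ : Measure Ω) [IsProbabilityMeasure μ] (_ : ∀ s, 0 < μ.real {s}) {U : Sym2 Ω → ℝ}
    {κ η : ℝ} (_ : Ker μ U κ η) (_ : (1 + η) ^ D ≤ 2) (_ : 10 ^ 12 * D * κ ≤ 1),
    ∀ [Fintype V] [DecidableEq V], Ent H (fun s => μ.real {s}) U

/-- measurable kernels close from above to the kernel of rank one -/
theorem cl_measurable_asm_of (hent : EntAsm) {V Ω : Type} [Fintype V] [DecidableEq V]
    [MeasurableSpace Ω] (H : SimpleGraph V)
    [DecidableRel H.Adj] (μ : Measure Ω) [IsProbabilityMeasure μ] (W : Ω → Ω → ℝ)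
    (hW : ∀ s t, W s t = W t s) (p C : ℝ) (D : ℕ) (hA : Assembled D V H)
    (hm : Measurable (Function.uncurry W)) (hb : ∀ s t, 0 ≤ W s t ∧ W s t ≤ C)
    (hint : ∫ s, ∫ t, W s t ∂μ ∂μ = p)
    (hcl : ∀ᵐ z ∂(μ.prod μ), p * W z.1 z.2 ≤
      (1 + 1 / (10 ^ 13 * (D:ℝ))) * ((∫ t, W z.1 t ∂μ) * ∫ t, W z.2 t ∂μ)) :
    p ^ H.edgeFinset.card ≤ kernelDensity μ H W hW := by
  classical
  rcases Nat.eq_zero_or_pos D with h | hD1
  · refine H774.cl_measurable_of H μ W hW p C (D := 1) le_rfl (η := 0) le_rfl (by norm_num)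
      hm hb hint ?_ fun X' _ _ m _ ν _ U κ η' h1 h2 h3 h4 =>
        hent (hA.mono (h ▸ Nat.zero_le 1)) ν h1 h2 h3 h4
    filter_upwards [hcl] with z hz
    simpa [h] using hz
  · have hDpos : (1:ℝ) ≤ D := by exact_mod_cast hD1
    exact H774.cl_measurable_of H μ W hW p C hD1 (η := 1 / (10 ^ 13 * (D:ℝ))) (by positivity)
      (le_of_eq (mul_one_div_cancel (by positivity))) hm hb hint hcl
      fun X' _ _ m _ ν _ U κ η' h1 h2 h3 h4 => hent hA ν h1 h2 h3 h4

end Vale.Agent.P050.Opt
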