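import Vale.Agent.P050.O.H774.LongFinal
import Vale.Agent.P050.O.H738.SubOdd

set_option linter.all false

/-!
Long subdivisions, all lengths: from the kernel inequality to graphs.
-/

open MeasureTheory Finset

namespace Vale.Agent.P050.Opt.H774

open Vale.Agent.P050 Vale.Agent.P050.Dense Vale.Agent.P050.Opt

/-- the kernel inequality: high powers of a kernel, bipartite graphs of bounded degree -/
def StK : Prop :=
  ∀ (X : Type) [Fintype X] [DecidableEq X] [Nonempty X] (W : X → X → ℝ)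
    (hs : ∀ x y, W x y = W y x) (_ : ∀ x y, 0 ≤ W x y) (D : ℕ),
    ∃ L : ℕ, ∀ k ≥ L, ∀ (V : Type) [Fintype V] [DecidableEq V] (H : SimpleGraph V)
      [DecidableRel H.Adj], H.IsBipartite → (∀ v, (H.neighborSet v).ncard ≤ D) →
      pden W ^ (k * H.edgeFinset.card) ≤ tden H (kpow W k) (kpow_symm hs k)

/-- the converse: odd lengths -/
def StOdd : Prop :=
  ∀ (V : Type) (F : SimpleGraph V) (ℓ : ℕ), Odd ℓ → (subdiv ℓ F).IsBipartite → F.IsBipartite

theorem stOdd : StOdd := fun V F ℓ ho h => H738Odd.bip_of_subdiv_odd ho h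

theorem tden_congr_ker {V X : Type} [Fintype V] [DecidableEq V] [Fintype X]
    (F : SimpleGraph V) [DecidableRel F.Adj] {K K' : X → X → ℝ} (a : ∀ x y, K x y = K y x)
    (b : ∀ x y, K' x y = K' y x) (h : K = K') : tden F K a = tden F K' b := by
  subst h
  rfl

/-- the inequality, target fixed -/
theorem long_all_one (jK : StK) {X : Type} [Finite X] [Nonempty X]
    (G : SimpleGraph X) (D : ℕ) :
    ∃ L : ℕ, ∀ ℓ ≥ L, ∀ (V : Type) [Finite V] (F : SimpleGraph V),
      (∀ v, (F.neighborSet v).ncard ≤ D) → (subdiv ℓ F).IsBipartite →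
      edgeDensity G ^ Nat.card (subdiv ℓ F).edgeSet ≤ homDensity (subdiv ℓ F) G := by
  classical
  have := Fintype.ofFinite X
  have hpos : ∀ x y, 0 ≤ adjK G x y := fun x y => by unfold adjK; split_ifs <;> norm_num
  obtain ⟨L, hL⟩ := jK X (adjK G) (adjK_symm G) hpos (D + 2)
  refine ⟨2 * L + 2, fun ℓ hℓ V _ F hF hb => ?_⟩
  have := Fintype.ofFinite V
  have hℓ1 : 1 ≤ ℓ := by omega
  rw [H322.subdiv_card F hℓ1, ← tden_adjK]
  rcases Nat.even_or_odd ℓ with he | ho
  · obtain ⟨k, rfl⟩ := he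
    have hk : k + k = k * 2 := by ring
    have hk1 : 1 ≤ k := by omega
    have h1 := hL k (by omega) _ (subdiv 2 F) (subdiv_two_bip F)
      (fun x => H322.subdiv_two_deg hF x)
    rw [pden_adjK] at h1
    have h2 : (subdiv 2 F).edgeFinset.card = 2 * Nat.card F.edgeSet := by
      rw [← H322.subdiv_two_card F, Nat.card_eq_fintype_card, SimpleGraph.edgeFinset_card]
    rw [h2, ← mul_assoc, ← hk, tden_subdiv F (by norm_num : 1 ≤ 2)] at h1
    refine le_trans h1 (le_of_eq ?_)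
    rw [tden_subdiv F hℓ1]
    exact tden_congr_ker F _ _ (by rw [kpow_kpow _ hk1 (by norm_num), hk])
  · have h1 := hL ℓ (by omega) _ F (stOdd V F ℓ ho hb) (fun v => le_trans (hF v) (by omega))
    rw [pden_adjK] at h1
    have h2 : F.edgeFinset.card = Nat.card F.edgeSet := by
      rw [Nat.card_eq_fintype_card, SimpleGraph.edgeFinset_card]
    rw [h2] at h1
    refine le_trans h1 (le_of_eq ?_)
    rw [tden_subdiv F hℓ1]

/-- **Long subdivisions**, all lengths, uniformly in the targets with at most `n` vertices -/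
theorem long_all_of (jK : StK) (n D : ℕ) :
    ∃ L : ℕ, ∀ ℓ ≥ L, ∀ (X : Type) [Finite X] [Nonempty X] (G : SimpleGraph X),
      Nat.card X ≤ n → ∀ (V : Type) [Finite V] (F : SimpleGraph V),
      (∀ v, (F.neighborSet v).ncard ≤ D) → (subdiv ℓ F).IsBipartite →
      edgeDensity G ^ Nat.card (subdiv ℓ F).edgeSet ≤ homDensity (subdiv ℓ F) G := by
  classical
  have h1 : ∀ p : (Σ m : Fin (n + 1), SimpleGraph (Fin m.1)), ∃ L : ℕ, 0 < p.1.1 →
      ∀ ℓ ≥ L, ∀ (V : Type) [Finite V] (F : SimpleGraph V),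
      (∀ v, (F.neighborSet v).ncard ≤ D) → (subdiv ℓ F).IsBipartite →
      edgeDensity p.2 ^ Nat.card (subdiv ℓ F).edgeSet ≤ homDensity (subdiv ℓ F) p.2 := by
    rintro ⟨⟨m, hm⟩, G⟩
    by_cases hm0 : 0 < m
    · have : Nonempty (Fin m) := ⟨⟨0, hm0⟩⟩
      obtain ⟨L, hL⟩ := long_all_one jK G D
      exact ⟨L, fun _ => hL⟩
    · exact ⟨0, fun h => absurd h hm0⟩
  choose f hf using h1
  obtain ⟨M, hM⟩ := Finite.exists_le f
  refine ⟨M, fun ℓ hℓ X _ _ G hX V _ F hF hb => ?_⟩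
  let e : X ≃ Fin (Nat.card X) := Finite.equivFin X
  let G' : SimpleGraph (Fin (Nat.card X)) := G.map e.toEmbedding
  let ψ : G ≃g G' := SimpleGraph.Iso.map e G
  rw [homDensity_iso _ ψ, edgeDensity_iso ψ]
  exact hf ⟨⟨Nat.card X, by omega⟩, G'⟩ Nat.card_pos ℓ (le_trans (hM _) hℓ) V F hF hb

end Vale.Agent.P050.Opt.H774
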