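import Vale.Agent.P050.O.H774.LongK
import Vale.Agent.P050.O.H234.LongUnif

set_option linter.all false

/-!
Long subdivisions, all lengths, uniformly in targets of arbitrary size.
-/

open MeasureTheory Finset

namespace Vale.Agent.P050.Opt.H774

open Vale.Agent.P050 Vale.Agent.P050.Dense Vale.Agent.P050.Opt

/-- all large powers are nearly of rank one on products of classes, uniformly in the size -/
def StCross : Prop :=
  ∀ (N : ℕ) (K : ℝ), 1 ≤ K → ∀ (ε : ℝ), 0 < ε → ∃ k0 : ℕ, 1 ≤ k0 ∧ ∀ k ≥ k0,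
    ∀ (X : Type) [Fintype X] [DecidableEq X] (A : Matrix X X ℝ)
      (hs : ∀ x y, A x y = A y x) (h0 : ∀ x y, 0 ≤ A x y) (m : ℝ) (hm : 0 < m)
      (hQ1 : ∀ x y, (∃ j : ℕ, 1 ≤ j ∧ 0 < (A ^ (2 * j)) x y) → m ≤ (A ^ (2 * N)) x y)
      (hQ2 : ∀ x y, (A ^ (2 * N)) x y ≤ K * m),
      ∀ x a y b, (∃ j : ℕ, 0 < (A ^ (2 * j)) x a) → (∃ j : ℕ, 0 < (A ^ (2 * j)) y b) →
      (A ^ k) x y * (A ^ k) a b ≤ (1 + ε) * ((A ^ k) x b * (A ^ k) a y)

/-- the hypotheses of `kernel_at` from the cross inequality at one power -/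
theorem cls_of_cross {X : Type} [Fintype X] [DecidableEq X] [Nonempty X] (W : X → X → ℝ)
    (hs : ∀ x y, W x y = W y x) (h0 : ∀ x y, 0 ≤ W x y) {η : ℝ} (hη : 0 < η) {m : ℕ}
    (hk0 : ∀ x a y b, Rel (Matrix.of W) x a → Rel (Matrix.of W) y b →
      (Matrix.of W ^ m) x y * (Matrix.of W ^ m) a b ≤
        (1 + η) * ((Matrix.of W ^ m) x b * (Matrix.of W ^ m) a y)) :
      (∀ x x1 y y1, cls (Matrix.of W) x = cls (Matrix.of W) x1 →
        kpow W m x y ≠ 0 → kpow W m x1 y1 ≠ 0 →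
        cls (Matrix.of W) y = cls (Matrix.of W) y1) ∧
      (∀ x y, kpow W m x y *
        (∑ a ∈ univ.filter (fun a => cls (Matrix.of W) a = cls (Matrix.of W) x),
          ∑ c, kpow W m a c) ≤
        (1 + η) * ((∑ c, kpow W m x c) * ∑ c, kpow W m y c)) := by
  have hs' : ∀ x y, Matrix.of W x y = Matrix.of W y x := hs
  have h0' : ∀ x y, 0 ≤ Matrix.of W x y := h0
  have hN : (0:ℝ) < Fintype.card X := by exact_mod_cast Fintype.card_pos
  have hc : (0:ℝ) < (Fintype.card X : ℝ) ^ (m - 1) := pow_pos hN _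
  have hnn : ∀ x y, 0 ≤ kpow W m x y := fun x y =>
    div_nonneg (pow_entry_nonneg h0' _ _ _) hc.le
  have hpos : ∀ x y, kpow W m x y ≠ 0 → 0 < (Matrix.of W ^ m) x y := by
    intro x y h
    refine lt_of_le_of_ne (pow_entry_nonneg h0' _ _ _) fun h' => h ?_
    rw [kpow, ← h', zero_div]
  have hcl : ∀ x x1 y y1, Rel (Matrix.of W) x x1 →
      kpow W m x y ≠ 0 → kpow W m x1 y1 ≠ 0 → Rel (Matrix.of W) y y1 := by
    intro x x1 y y1 hx h1 h2
    obtain ⟨j, hj⟩ := hx
    have h3 := hpos _ _ h1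
    have h4 := hpos _ _ h2
    rw [pow_entry_symm hs'] at h3
    refine ⟨m + j, ?_⟩
    have h5 : 2 * (m + j) = m + 2 * j + m := by ring
    rw [h5, pow_add, Matrix.mul_apply]
    refine lt_of_lt_of_le (mul_pos ?_ h4) (Finset.single_le_sum
      (f := fun t => (Matrix.of W ^ (m + 2 * j)) y t * (Matrix.of W ^ m) t y1)
      (fun t _ => mul_nonneg (pow_entry_nonneg h0' _ _ _)
        (pow_entry_nonneg h0' _ _ _)) (Finset.mem_univ x1))
    rw [pow_add, Matrix.mul_apply]
    exact lt_of_lt_of_le (mul_pos h3 hj) (Finset.single_le_sum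
      (f := fun t => (Matrix.of W ^ m) y t * (Matrix.of W ^ (2 * j)) t x1)
      (fun t _ => mul_nonneg (pow_entry_nonneg h0' _ _ _)
        (pow_entry_nonneg h0' _ _ _)) (Finset.mem_univ x))
  refine ⟨fun x x1 y y1 hx h1 h2 => ?_, fun x y => ?_⟩
  · exact (cls_eq_iff hs' h0').mpr
      (rel_symm hs' (hcl x x1 y y1
        (rel_symm hs' ((cls_eq_iff hs' h0').mp hx)) h1 h2))
  · have hcross : ∀ a, cls (Matrix.of W) a = cls (Matrix.of W) x → ∀ c,
        kpow W m x y * kpow W m a c ≤ (1 + η) * (kpow W m x c * kpow W m a y) := by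
      intro a ha c
      have hrel : Rel (Matrix.of W) x a := (cls_eq_iff hs' h0').mp ha
      have hR : 0 ≤ (1 + η) * (kpow W m x c * kpow W m a y) :=
        mul_nonneg (by linarith) (mul_nonneg (hnn _ _) (hnn _ _))
      by_cases h1 : kpow W m x y = 0
      · rw [h1, zero_mul]; exact hR
      by_cases h2 : kpow W m a c = 0
      · rw [h2, mul_zero]; exact hR
      have h3 := hk0 x a y c hrel (hcl x a y c hrel h1 h2)
      have h4 : 0 ≤ ((Fintype.card X : ℝ) ^ (m - 1))⁻¹ * ((Fintype.card X : ℝ) ^ (m - 1))⁻¹ :=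
        mul_nonneg (inv_nonneg.mpr hc.le) (inv_nonneg.mpr hc.le)
      have h5 := mul_le_mul_of_nonneg_left h3 h4
      simp only [kpow, div_eq_mul_inv]
      calc _ = ((Fintype.card X : ℝ) ^ (m - 1))⁻¹ * ((Fintype.card X : ℝ) ^ (m - 1))⁻¹ *
            ((Matrix.of W ^ m) x y * (Matrix.of W ^ m) a c) := by ring
        _ ≤ _ := h5
        _ = _ := by ring
    calc kpow W m x y *
        (∑ a ∈ univ.filter (fun a => cls (Matrix.of W) a = cls (Matrix.of W) x),
          ∑ c, kpow W m a c)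
        = ∑ a ∈ univ.filter (fun a => cls (Matrix.of W) a = cls (Matrix.of W) x),
          ∑ c, kpow W m x y * kpow W m a c := by
          rw [Finset.mul_sum]
          exact Finset.sum_congr rfl fun a _ => Finset.mul_sum _ _ _
      _ ≤ ∑ a ∈ univ.filter (fun a => cls (Matrix.of W) a = cls (Matrix.of W) x),
          ∑ c, (1 + η) * (kpow W m x c * kpow W m a y) :=
          Finset.sum_le_sum fun a ha => Finset.sum_le_sum fun c _ =>
            hcross a (Finset.mem_filter.mp ha).2 c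
      _ ≤ ∑ a, ∑ c, (1 + η) * (kpow W m x c * kpow W m a y) :=
          Finset.sum_le_sum_of_subset_of_nonneg (Finset.filter_subset _ _) fun a _ _ =>
            Finset.sum_nonneg fun c _ =>
              mul_nonneg (by linarith) (mul_nonneg (hnn _ _) (hnn _ _))
      _ = (1 + η) * ((∑ c, kpow W m x c) * ∑ c, kpow W m y c) := by
          rw [Finset.sum_mul_sum, Finset.mul_sum, Finset.sum_comm]
          refine Finset.sum_congr rfl fun a _ => ?_
          rw [Finset.mul_sum]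
          refine Finset.sum_congr rfl fun c _ => ?_
          rw [kpow_symm hs m c y]

/-- the passage from `F_ℓ` to bipartite graphs of bounded degree, one graph, one length -/
theorem long_at {X : Type} [Fintype X] [DecidableEq X] [Nonempty X] (G : SimpleGraph X)
    [DecidableRel G.Adj] (D ℓ : ℕ) (hℓ1 : 1 ≤ ℓ)
    (hL : ∀ k, (ℓ = k ∨ ℓ = k + k) → 1 ≤ k →
      ∀ (V : Type) [Fintype V] [DecidableEq V] (H : SimpleGraph V)
      [DecidableRel H.Adj], H.IsBipartite → (∀ v, (H.neighborSet v).ncard ≤ D + 2) →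
      pden (adjK G) ^ (k * H.edgeFinset.card) ≤
        tden H (kpow (adjK G) k) (kpow_symm (adjK_symm G) k))
    (V : Type) [Finite V] (F : SimpleGraph V)
    (hF : ∀ v, (F.neighborSet v).ncard ≤ D) (hb : (subdiv ℓ F).IsBipartite) :
    edgeDensity G ^ Nat.card (subdiv ℓ F).edgeSet ≤ homDensity (subdiv ℓ F) G := by
  classical
  have := Fintype.ofFinite V
  rw [H322.subdiv_card F hℓ1, ← tden_adjK]
  rcases Nat.even_or_odd ℓ with he | ho
  · obtain ⟨k, rfl⟩ := he
    have hk : k + k = k * 2 := by ring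
    have hk1 : 1 ≤ k := by omega
    have h1 := hL k (Or.inr rfl) hk1 _ (subdiv 2 F) (subdiv_two_bip F)
      (fun x => H322.subdiv_two_deg hF x)
    rw [pden_adjK] at h1
    have h2 : (subdiv 2 F).edgeFinset.card = 2 * Nat.card F.edgeSet := by
      rw [← H322.subdiv_two_card F, Nat.card_eq_fintype_card, SimpleGraph.edgeFinset_card]
    rw [h2, ← mul_assoc, ← hk, tden_subdiv F (by norm_num : 1 ≤ 2)] at h1
    refine le_trans h1 (le_of_eq ?_)
    rw [tden_subdiv F hℓ1]
    exact tden_congr_ker F _ _ (by rw [kpow_kpow _ hk1 (by norm_num), hk])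
  · have h1 := hL ℓ (Or.inl rfl) hℓ1 _ F (stOdd V F ℓ ho hb) (fun v => le_trans (hF v) (by omega))
    rw [pden_adjK] at h1
    have h2 : F.edgeFinset.card = Nat.card F.edgeSet := by
      rw [Nat.card_eq_fintype_card, SimpleGraph.edgeFinset_card]
    rw [h2] at h1
    refine le_trans h1 (le_of_eq ?_)
    rw [tden_subdiv F hℓ1]

/-- **Long subdivisions**, all lengths, against graphs with an arbitrary number `n` of vertices:
any two vertices which are joined by a walk of positive even length are joined by at least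
`δ * n ^ (2 * j - 1)` walks of length `2 * j` -/
theorem long_unif_all_of (jC : StCross) {j : ℕ} (hj : 1 ≤ j) {δ : ℝ} (hδ : 0 < δ) (D : ℕ) :
    ∃ L : ℕ, ∀ ℓ ≥ L, ∀ (X : Type) [Finite X] [Nonempty X] (G : SimpleGraph X),
      (∀ x y, (∃ q : G.Walk x y, Even q.length ∧ q.length ≠ 0) →
        δ * (Nat.card X : ℝ) ^ (2 * j - 1) ≤ Nat.card {q : G.Walk x y // q.length = 2 * j}) →
      ∀ (V : Type) [Finite V] (F : SimpleGraph V), (∀ v, (F.neighborSet v).ncard ≤ D) →
      (subdiv ℓ F).IsBipartite →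
      edgeDensity G ^ Nat.card (subdiv ℓ F).edgeSet ≤ homDensity (subdiv ℓ F) G := by
  classical
  have hD : (0:ℝ) < 3 * 10 ^ 13 * ((D + 2 : ℕ) : ℝ) := by positivity
  have hη : (0:ℝ) < (3 * 10 ^ 13 * ((D + 2 : ℕ) : ℝ))⁻¹ := inv_pos.mpr hD
  obtain ⟨L, hL1, hL⟩ := jC j (max 1 δ⁻¹) (le_max_left 1 δ⁻¹) _ hη
  refine ⟨2 * L + 2, fun ℓ hℓ X _ _ G hG V _ F hF hb => ?_⟩
  have := Fintype.ofFinite X
  refine long_at G D ℓ (by omega) (fun k hk hk1 V _ _ H _ hH hd => ?_) V F hF hb
  have hkL : L ≤ k := by omega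
  set A : Matrix X X ℝ := Matrix.of (adjK G) with hA
  have hAG : A = G.adjMatrix ℝ := by
    ext x y
    simp only [hA, Matrix.of_apply, adjK, SimpleGraph.adjMatrix_apply]
  have hs : ∀ x y, A x y = A y x := fun x y => adjK_symm G x y
  have h0 : ∀ x y, 0 ≤ A x y := fun x y => by
    show 0 ≤ adjK G x y
    unfold adjK
    split_ifs <;> norm_num
  have h1 : ∀ x y, A x y ≤ 1 := fun x y => by
    show adjK G x y ≤ 1
    unfold adjK
    split_ifs <;> norm_num
  have hwalk : ∀ (l : ℕ) (x y : X),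
      (A ^ l) x y = (Nat.card {q : G.Walk x y // q.length = l} : ℝ) := by
    intro l x y
    rw [hAG, SimpleGraph.adjMatrix_pow_apply_eq_card_walk, ← Nat.card_eq_fintype_card]
    rfl
  have hcard : (0:ℝ) < Fintype.card X := by
    have := Fintype.card_pos (α := X)
    positivity
  have hcross := hL k hkL X A hs h0 (δ * (Fintype.card X : ℝ) ^ (2 * j - 1)) (by positivity)
    (by
      rintro x y ⟨i, hi1, hi⟩
      rw [hwalk] at hi ⊢
      rw [← Nat.card_eq_fintype_card]
      refine hG x y ?_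
      have h2 : 0 < Nat.card {q : G.Walk x y // q.length = 2 * i} := by exact_mod_cast hi
      obtain ⟨⟨q, hq⟩⟩ := (Nat.card_pos_iff.1 h2).1
      exact ⟨q, by rw [hq]; exact ⟨i, by ring⟩, by omega⟩)
    (by
      intro x y
      obtain ⟨l, hl⟩ : ∃ l, 2 * j = l + 1 := ⟨2 * j - 1, by omega⟩
      have h2 := H234.pow_le_card h0 h1 l x y
      rw [hl, Nat.add_sub_cancel]
      refine h2.trans ?_
      have h3 : (1:ℝ) ≤ max 1 δ⁻¹ * δ := by
        calc (1:ℝ) = δ⁻¹ * δ := (inv_mul_cancel₀ hδ.ne').symm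
          _ ≤ max 1 δ⁻¹ * δ := mul_le_mul_of_nonneg_right (le_max_right _ _) hδ.le
      calc (Fintype.card X : ℝ) ^ l = 1 * (Fintype.card X : ℝ) ^ l := (one_mul _).symm
        _ ≤ (max 1 δ⁻¹ * δ) * (Fintype.card X : ℝ) ^ l :=
            mul_le_mul_of_nonneg_right h3 (by positivity)
        _ = max 1 δ⁻¹ * (δ * (Fintype.card X : ℝ) ^ l) := by ring)
  obtain ⟨h2, h3⟩ := cls_of_cross (adjK G) (adjK_symm G) (fun x y => h0 x y) hη hcross
  exact kernel_at H hH (D := D + 2) (by omega) hd hη.le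
    (by rw [mul_inv_cancel₀ hD.ne']) (adjK G) (adjK_symm G) (fun x y => h0 x y) hk1
    (cls (Matrix.of (adjK G))) h2 h3

end Vale.Agent.P050.Opt.H774
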