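import Vale.Agent.P050.O.H774.BuiltGraph
import Vale.Agent.P050.O.H261.RowsBuilt

set_option linter.all false

/-!
Dense targets, graphs built by gluing: graphs of large minimum degree.
-/

open MeasureTheory Finset

namespace Vale.Agent.P050.Opt

open Vale.Agent.P050 Vale.Agent.P050.Dense

/-- E9: graphs -/
theorem built_graph {V X : Type} [Finite V] [Finite X] [Nonempty X] (H : SimpleGraph V)
    (G : SimpleGraph X) (D : ℕ) (hG : Built D V H)
    (hdeg : ∀ x, (1 - 1 / (10 ^ 13 * (D:ℝ))) * Nat.card X ≤ ((G.neighborSet x).ncard : ℝ)) :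
    edgeDensity G ^ Nat.card H.edgeSet ≤ homDensity H G :=
  built_graph_of (fun H _ _ hD1 hB _ hθ0 hθ W hs h0 h1 hmin =>
    rows_built H hD1 hB hθ0 hθ W hs h0 h1 hmin) H G D hG hdeg

end Vale.Agent.P050.Opt
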