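import Vale.Agent.P050.O.H774.ClAsm
import Vale.Agent.P050.O.H625.AsmFin

set_option linter.all false

/-!
Measurable kernels which are close from above to the kernel of rank one with the same degrees,
assembled graphs.
-/

open MeasureTheory Finset

namespace Vale.Agent.P050.Opt

open Vale.Agent.P050 Vale.Agent.P050.Dense Vale.Agent.P050.H753

/-- measurable kernels close from above to the kernel of rank one with the same degrees -/
theorem cl_measurable {V Ω : Type} [Fintype V] [DecidableEq V]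
    [MeasurableSpace Ω] (H : SimpleGraph V)
    [DecidableRel H.Adj] (μ : Measure Ω) [IsProbabilityMeasure μ] (W : Ω → Ω → ℝ)
    (hW : ∀ s t, W s t = W t s) (p C : ℝ) (D : ℕ) (hA : Assembled D V H)
    (hm : Measurable (Function.uncurry W)) (hb : ∀ s t, 0 ≤ W s t ∧ W s t ≤ C)
    (hint : ∫ s, ∫ t, W s t ∂μ ∂μ = p)
    (hcl : ∀ᵐ z ∂(μ.prod μ), p * W z.1 z.2 ≤
      (1 + 1 / (10 ^ 13 * (D:ℝ))) * ((∫ t, W z.1 t ∂μ) * ∫ t, W z.2 t ∂μ)) :
    p ^ H.edgeFinset.card ≤ kernelDensity μ H W hW :=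
  cl_measurable_asm_of (fun h ν _ h1 _ _ _ h2 h3 h4 => ent_asm h ν h1 h2 h3 h4)
    H μ W hW p C D hA hm hb hint hcl

end Vale.Agent.P050.Opt
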