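import Vale.Agent.P050.O.H774.Part2
import Vale.Agent.P050.O.H234.CL

set_option linter.all false

/-!
Measurable kernels which are close from above to the kernel of rank one with the same degrees.
-/

open MeasureTheory Finset

namespace Vale.Agent.P050.Opt

open Vale.Agent.P050 Vale.Agent.P050.Dense Vale.Agent.P050.H753

namespace H774

section cells

variable {Ω : Type*} [MeasurableSpace Ω] {μ : Measure Ω} [IsProbabilityMeasure μ] {k : ℕ}
  {φ : Ω → Fin k}

theorem sum_atoms (hφ : Measurable φ) : ∑ i, μ.real (φ ⁻¹' {i}) = 1 := by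
  have h := sum_cells (μ := μ) hφ (integrable_const (1:ℝ))
  have h2 : ∀ i, ∑ j, ∫ z in (φ ⁻¹' {i}) ×ˢ (φ ⁻¹' {j}), (1:ℝ) ∂(μ.prod μ) =
      μ.real (φ ⁻¹' {i}) * ∑ j, μ.real (φ ⁻¹' {j}) := by
    intro i
    rw [Finset.mul_sum]
    refine Finset.sum_congr rfl fun j _ => ?_
    rw [setIntegral_const, measureReal_prod_prod, smul_eq_mul, mul_one]
  simp only [h2] at h
  rw [← Finset.sum_mul] at h
  simp only [integral_const, probReal_univ, smul_eq_mul, mul_one] at h
  have h3 : 0 ≤ ∑ i, μ.real (φ ⁻¹' {i}) := Finset.sum_nonneg fun i _ => measureReal_nonneg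
  nlinarith

/-- the sum over a row of cells -/
theorem row_cells (hφ : Measurable φ) {g : Ω × Ω → ℝ} (hg : Integrable g (μ.prod μ))
    (i : Fin k) :
    ∑ j, ∫ z in (φ ⁻¹' {i}) ×ˢ (φ ⁻¹' {j}), g z ∂(μ.prod μ) =
      ∫ x in φ ⁻¹' {i}, ∫ y, g (x, y) ∂μ ∂μ := by
  classical
  have hcell : ∀ j, MeasurableSet ((φ ⁻¹' {i}) ×ˢ (φ ⁻¹' {j})) := fun j =>
    (hφ (measurableSet_singleton i)).prod (hφ (measurableSet_singleton j))
  have hrow : MeasurableSet ((φ ⁻¹' {i}) ×ˢ (Set.univ : Set Ω)) :=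
    (hφ (measurableSet_singleton i)).prod MeasurableSet.univ
  have h1 : ∀ z, ∑ j, ((φ ⁻¹' {i}) ×ˢ (φ ⁻¹' {j})).indicator g z =
      ((φ ⁻¹' {i}) ×ˢ (Set.univ : Set Ω)).indicator g z := by
    intro z
    rw [Finset.sum_eq_single (φ z.2)]
    · by_cases h : φ z.1 = i
      · rw [Set.indicator_of_mem (by simp [h]), Set.indicator_of_mem (by simp [h])]
      · rw [Set.indicator_of_notMem (by simp [h]), Set.indicator_of_notMem (by simp [h])]
    · intro j _ hj
      refine Set.indicator_of_notMem (fun h => hj ?_) _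
      have := (Set.mem_prod.1 h).2
      simpa using this.symm
    · intro h; exact absurd (Finset.mem_univ _) h
  have h2 : ∫ z in (φ ⁻¹' {i}) ×ˢ (Set.univ : Set Ω), g z ∂(μ.prod μ) =
      ∫ x in φ ⁻¹' {i}, ∫ y, g (x, y) ∂μ ∂μ := by
    rw [setIntegral_prod _ hg.integrableOn]
    simp only [Measure.restrict_univ]
  rw [← h2, ← integral_indicator hrow]
  calc ∑ j, ∫ z in (φ ⁻¹' {i}) ×ˢ (φ ⁻¹' {j}), g z ∂(μ.prod μ)
      = ∑ j, ∫ z, ((φ ⁻¹' {i}) ×ˢ (φ ⁻¹' {j})).indicator g z ∂(μ.prod μ) :=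
        Finset.sum_congr rfl fun j _ => (integral_indicator (hcell j)).symm
    _ = ∫ z, ∑ j, ((φ ⁻¹' {i}) ×ˢ (φ ⁻¹' {j})).indicator g z ∂(μ.prod μ) :=
        (integral_finset_sum _ fun j _ => hg.indicator (hcell j)).symm
    _ = _ := integral_congr_ae (Filter.Eventually.of_forall h1)

end cells

/-- the density in a function of finite labels -/
theorem dens_lab {V : Type*} [Fintype V] [DecidableEq V] {Ω : Type*} [MeasurableSpace Ω]
    (H : SimpleGraph V) [DecidableRel H.Adj] (μ : Measure Ω) [IsProbabilityMeasure μ] {k : ℕ}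
    {φ : Ω → Fin k} (hφ : Measurable φ) (K : Fin k → Fin k → ℝ) (hK : ∀ i j, K i j = K j i) :
    ∫ x, ∏ e ∈ H.edgeFinset, ev (fun s t => K (φ s) (φ t)) (fun s t => hK _ _) x e ∂(piM V μ) =
      wden H (fun i => μ.real (φ ⁻¹' {i})) K hK := by
  classical
  have hν : IsProbabilityMeasure (μ.map φ) := Measure.isProbabilityMeasure_map hφ.aemeasurable
  have hmap : (piM V μ).map (fun x v => φ (x v)) = piM V (μ.map φ) :=
    Measure.pi_map_pi (μ := fun _ : V => μ) (f := fun _ => φ) fun _ => hφ.aemeasurable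
  have hmeas : Measurable (fun (x : V → Ω) v => φ (x v)) :=
    measurable_pi_iff.2 fun v => hφ.comp (measurable_pi_apply v)
  have h1 : ∀ x : V → Ω, ∏ e ∈ H.edgeFinset, ev (fun s t => K (φ s) (φ t))
      (fun s t => hK _ _) x e = ∏ e ∈ H.edgeFinset, ev K hK (fun v => φ (x v)) e := by
    intro x
    refine Finset.prod_congr rfl fun e _ => ?_
    induction e with
    | h u v => rfl
  simp only [h1]
  have h2 : ∫ x, ∏ e ∈ H.edgeFinset, ev K hK (fun v => φ (x v)) e ∂(piM V μ) =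
      ∫ z, ∏ e ∈ H.edgeFinset, ev K hK z e ∂(piM V (μ.map φ)) := by
    rw [← hmap, integral_map hmeas.aemeasurable
      (_root_.measurable_of_finite _).aestronglyMeasurable]
  rw [h2, Vale.Agent.P050.R2.H111.integral_piM (w := fun i => μ.real (φ ⁻¹' {i}))
    (fun i => ?_)]
  · rfl
  · rw [Measure.real, Measure.map_apply hφ (measurableSet_singleton i), Measure.real]

/-- measurable kernels close from above to the kernel of rank one, from the laws of `Ent` -/
theorem cl_measurable_of {V Ω : Type} [Fintype V] [DecidableEq V] [MeasurableSpace Ω]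
    (H : SimpleGraph V) [DecidableRel H.Adj] (μ : Measure Ω) [IsProbabilityMeasure μ]
    (W : Ω → Ω → ℝ) (hW : ∀ s t, W s t = W t s) (p C : ℝ) {D : ℕ} (hD1 : 1 ≤ D)
    {η : ℝ} (hη0 : 0 ≤ η) (hη : 10 ^ 13 * (D:ℝ) * η ≤ 1)
    (hm : Measurable (Function.uncurry W)) (hb : ∀ s t, 0 ≤ W s t ∧ W s t ≤ C)
    (hint : ∫ s, ∫ t, W s t ∂μ ∂μ = p)
    (hcl : ∀ᵐ z ∂(μ.prod μ), p * W z.1 z.2 ≤
      (1 + η) * ((∫ t, W z.1 t ∂μ) * ∫ t, W z.2 t ∂μ))
    (hE : ∀ (X' : Type) [Fintype X'] [DecidableEq X'] (m : MeasurableSpace X')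
      (_ : MeasurableSingletonClass X') (μ : Measure X') [IsProbabilityMeasure μ]
      (U : Sym2 X' → ℝ) (κ η : ℝ), (∀ s, 0 < μ.real {s}) →
      Ker μ U κ η → (1 + η) ^ D ≤ 2 → 10 ^ 12 * (D:ℝ) * κ ≤ 1 →
      Ent H (fun s => μ.real {s}) U) :
    p ^ H.edgeFinset.card ≤ kernelDensity μ H W hW := by
  classical
  have hbm : BM (Function.uncurry W) := ⟨hm, C, fun z => by
    rw [abs_le]
    exact ⟨by have := hb z.1 z.2; simp only [Function.uncurry]; linarith, (hb z.1 z.2).2⟩⟩
  have hWi : Integrable (fun z : Ω × Ω => W z.1 z.2) (μ.prod μ) := hbm.integrable _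
  have hp0 : 0 ≤ p := by
    rw [← hint]
    exact integral_nonneg fun s => integral_nonneg fun t => (hb s t).1
  have hint2 : ∫ z, W z.1 z.2 ∂(μ.prod μ) = p := by
    rw [integral_prod (f := fun z : Ω × Ω => W z.1 z.2) hWi]
    exact hint
  set d : Ω → ℝ := fun s => ∫ t, W s t ∂μ with hd
  have hdb : BM d := hbm.integral_right μ
  rcases hp0.eq_or_lt with hp | hp
  · -- mean zero
    rcases Nat.eq_zero_or_pos H.edgeFinset.card with hc | hc
    · rw [hc, pow_zero]
      have he : H.edgeFinset = ∅ := Finset.card_eq_zero.1 hc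
      unfold kernelDensity
      rw [he]
      simp
    · rw [← hp, zero_pow hc.ne']
      exact integral_nonneg fun x => Finset.prod_nonneg fun e _ => by
        induction e with
        | h u v => exact (hb _ _).1
  · refine kd_of_avg H μ hW hm hb fun k φ hφ => ?_
    rw [dens_lab H μ hφ (avg μ W φ) (avg_symm hW)]
    set a : Fin k → ℝ := fun i => μ.real (φ ⁻¹' {i}) with ha
    have hrow : ∀ i, a i * ∑ j, a j * avg μ W φ i j = ∫ x in φ ⁻¹' {i}, d x ∂μ := by
      intro i
      rw [← row_cells hφ hWi i, Finset.mul_sum]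
      refine Finset.sum_congr rfl fun j _ => ?_
      rw [← mul_avg hbm, ha]
      ring
    refine cl_of_ent H hD1 hη0 hη a (fun i => measureReal_nonneg) (sum_atoms hφ)
      (avg μ W φ) (avg_symm hW) (avg_nonneg fun s t => (hb s t).1) (p := p) ?_ hp ?_ hE
    · rw [← hint2, sum_cells hφ hWi]
      refine Finset.sum_congr rfl fun i _ => Finset.sum_congr rfl fun j _ => ?_
      exact mul_avg hbm i j
    · intro i j hi hj
      have h1 : ∫ z in (φ ⁻¹' {i}) ×ˢ (φ ⁻¹' {j}), p * W z.1 z.2 ∂(μ.prod μ) ≤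
          ∫ z in (φ ⁻¹' {i}) ×ˢ (φ ⁻¹' {j}), (1 + η) * (d z.1 * d z.2) ∂(μ.prod μ) := by
        refine setIntegral_mono_ae (hWi.const_mul p).integrableOn ?_ hcl
        have h2 : BM (fun z : Ω × Ω => (1 + η) * (d z.1 * d z.2)) :=
          (BM.const _).mul ((hdb.comp measurable_fst).mul (hdb.comp measurable_snd))
        exact (h2.integrable _).integrableOn
      rw [integral_const_mul, integral_const_mul, setIntegral_prod_mul, ← mul_avg hbm,
        ← hrow i, ← hrow j] at h1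
      have hij : 0 < a i * a j := mul_pos hi hj
      refine le_of_mul_le_mul_left ?_ hij
      calc a i * a j * (p * avg μ W φ i j) = p * (a i * a j * avg μ W φ i j) := by ring
        _ ≤ (1 + η) * (a i * (∑ z, a z * avg μ W φ i z) * (a j * ∑ z, a z * avg μ W φ j z)) := h1
        _ = _ := by ring

end H774

end Vale.Agent.P050.Opt
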