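import Vale.Agent.P050.O.H300.StarDefs
import Vale.Agent.P050.R3.H904.ToGraph

set_option linter.all false

/-!
Dense targets, graphs glued at single vertices: from kernels with good rows to graphs.
-/

open MeasureTheory Finset

namespace Vale.Agent.P050.Opt

open Vale.Agent.P050 Vale.Agent.P050.Dense

/-- the statement of `rows_glued` -/
def RowsGlued : Prop :=
  ∀ {V X : Type} [Fintype V] [DecidableEq V] [Fintype X] [DecidableEq X]
    [Nonempty X] (H : SimpleGraph V) [DecidableRel H.Adj] (_ : H.IsBipartite) {D : ℕ}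
    (_ : 1 ≤ D) (_ : Glued D H) {θ : ℝ} (_ : 0 < θ)
    (_ : 10 ^ 13 * (D:ℝ) * θ ≤ 1)
    (W : X → X → ℝ) (hs : ∀ x y, W x y = W y x) (_ : ∀ x y, 0 ≤ W x y)
    (_ : ∀ x y, W x y ≤ 1) (_ : ∀ x, (1 - θ) * Fintype.card X ≤ ∑ y, W x y),
    pden W ^ H.edgeFinset.card ≤ tden H W hs

/-- the row sums of the adjacency kernel -/
theorem H774.sum_adjK {X : Type*} [Fintype X] (G : SimpleGraph X) [DecidableRel G.Adj] (x : X) :
    ∑ y, adjK G x y = ((G.neighborSet x).ncard : ℝ) := by
  classical
  unfold adjK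
  rw [Finset.sum_boole, Set.ncard_eq_toFinset_card']
  congr 2
  ext y
  simp

/-- V8: graphs -/
theorem glued_graph_of (hr : RowsGlued) {V X : Type} [Finite V] [Finite X] [Nonempty X]
    (H : SimpleGraph V) (G : SimpleGraph X) (hH : H.IsBipartite) (D : ℕ) (hG : Glued D H)
    (hdeg : ∀ x, (1 - 1 / (10 ^ 13 * (D:ℝ))) * Nat.card X ≤ ((G.neighborSet x).ncard : ℝ)) :
    edgeDensity G ^ Nat.card H.edgeSet ≤ homDensity H G := by
  classical
  have := Fintype.ofFinite V
  have := Fintype.ofFinite X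
  rcases Nat.eq_zero_or_pos D with h | hD1
  · exfalso
    obtain ⟨x⟩ := ‹Nonempty X›
    have h1 := hdeg x
    rw [h, Nat.cast_zero, mul_zero, div_zero, sub_zero, one_mul] at h1
    have h2 : (G.neighborSet x).ncard < (Set.univ : Set X).ncard := by
      refine Set.ncard_lt_ncard ⟨Set.subset_univ _, fun h3 => ?_⟩ Set.finite_univ
      exact G.loopless.irrefl x (h3 (Set.mem_univ x))
    rw [Set.ncard_univ] at h2
    have h3 : Nat.card X ≤ (G.neighborSet x).ncard := by exact_mod_cast h1
    omega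
  · have hDpos : (1:ℝ) ≤ D := by exact_mod_cast hD1
    rw [← tden_adjK, ← pden_adjK, Nat.card_eq_fintype_card, ← SimpleGraph.edgeFinset_card]
    refine hr H hH hD1 hG (θ := 1 / (10 ^ 13 * (D:ℝ))) (by positivity)
      (le_of_eq (mul_one_div_cancel (by positivity))) (adjK G) (adjK_symm G) (fun x y => ?_)
      (fun x y => ?_) (fun x => ?_)
    · unfold adjK; split_ifs <;> norm_num
    · unfold adjK; split_ifs <;> norm_num
    · rw [H774.sum_adjK, ← Nat.card_eq_fintype_card]
      exact hdeg x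

end Vale.Agent.P050.Opt
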