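import Vale.Agent.P050.O.H234.AllLog
import Vale.Agent.P050.O.H738.Small

set_option linter.all false

open Finset

namespace Vale.Agent.P050.Opt.H774

open Vale.Agent.P050 Vale.Agent.P050.Dense Vale.Agent.P050.Opt

/-- **Long subdivisions, with length logarithmic in the degree.** For all `n`, `j ≥ 1` and `ε > 0`
there is `C` such that, for `ℓ ≥ C log (D + 2)`, every bipartite subdivision `F_ℓ` of a graph `F` of
maximum degree at most `D` satisfies the inequality against every graph with at most `n` vertices,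
and against every graph in which any two vertices joined by a nontrivial even walk are joined by at
least `ε N ^ (2 j - 1)` walks of length `2 j`. -/
theorem long_log (n j : ℕ) (ε : ℝ) (hj : 1 ≤ j) (hε : 0 < ε) :
    ∃ C : ℝ, ∀ (D ℓ : ℕ), C * Real.log (D + 2) ≤ ℓ →
      ∀ (X : Type) [Finite X] [Nonempty X] (G : SimpleGraph X),
      (Nat.card X ≤ n ∨ ∀ x y, (∃ q : G.Walk x y, Even q.length ∧ q.length ≠ 0) →
        ε * (Nat.card X : ℝ) ^ (2 * j - 1) ≤ Nat.card {q : G.Walk x y // q.length = 2 * j}) →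
      ∀ (V : Type) [Finite V] (F : SimpleGraph V),
      (∀ v, (F.neighborSet v).ncard ≤ D) → (subdiv ℓ F).IsBipartite →
      edgeDensity G ^ Nat.card (subdiv ℓ F).edgeSet ≤ homDensity (subdiv ℓ F) G := by
  have key : ∀ (D : ℕ), 0 ≤ Real.log ((D : ℝ) + 2) := fun D =>
    Real.log_nonneg (by have : (0:ℝ) ≤ (D : ℝ) := Nat.cast_nonneg D; linarith)
  obtain ⟨C₂, h₂⟩ := H234.all_log hj hε
  rcases Nat.eq_zero_or_pos n with hn | hn
  · refine ⟨C₂, fun D ℓ hℓ X _ _ G hG V _ F hF hb => ?_⟩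
    rcases hG with hG | hG
    · have := Nat.card_pos (α := X)
      omega
    · exact h₂ D ℓ hℓ X G hG V F hF hb
  obtain ⟨δ, hδ, h₀⟩ := H738.small_hyp n hn
  obtain ⟨C₁, h₁⟩ := H234.all_log hn hδ
  refine ⟨max C₁ C₂, fun D ℓ hℓ X _ _ G hG V _ F hF hb => ?_⟩
  rcases hG with hG | hG
  · exact h₁ D ℓ (le_trans (mul_le_mul_of_nonneg_right (le_max_left _ _) (key D)) hℓ) X G
      (h₀ X G hG) V F hF hb
  · exact h₂ D ℓ (le_trans (mul_le_mul_of_nonneg_right (le_max_right _ _) (key D)) hℓ) X G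
      hG V F hF hb

end Vale.Agent.P050.Opt.H774
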