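import Vale.Agent.P050.R3.H904.Meas
import Vale.Agent.P050.H753.Comb

set_option linter.all false

/-!
Measurable kernels: averages over finite partitions.
-/

open MeasureTheory Finset

namespace Vale.Agent.P050.Opt

open Vale.Agent.P050 Vale.Agent.P050.Dense Vale.Agent.P050.H753

namespace H774

variable {Ω : Type*} [MeasurableSpace Ω]

/-- functions on the square which are limits in the mean of functions of finite labels -/
def Appr (μ : Measure Ω) (f : Ω × Ω → ℝ) : Prop :=
  ∀ ε : ℝ, 0 < ε → ∃ (k : ℕ) (φ : Ω → Fin k) (F : Fin k → Fin k → ℝ), Measurable φ ∧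
    ∫ z, |f z - F (φ z.1) (φ z.2)| ∂(μ.prod μ) < ε

theorem meas_lab {k : ℕ} {φ : Ω → Fin k} (hφ : Measurable φ) (F : Fin k → Fin k → ℝ) :
    Measurable (fun z : Ω × Ω => F (φ z.1) (φ z.2)) :=
  (_root_.measurable_of_finite (Function.uncurry F)).comp
    ((hφ.comp measurable_fst).prodMk (hφ.comp measurable_snd))

theorem int_lab {μ : Measure Ω} [IsProbabilityMeasure μ] {k : ℕ} {φ : Ω → Fin k}
    (hφ : Measurable φ) (F : Fin k → Fin k → ℝ) :
    Integrable (fun z : Ω × Ω => F (φ z.1) (φ z.2)) (μ.prod μ) := by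
  refine Integrable.of_bound (meas_lab hφ F).aestronglyMeasurable
    (∑ i, ∑ j, |F i j|) (Filter.Eventually.of_forall fun z => ?_)
  rw [Real.norm_eq_abs]
  exact (Finset.single_le_sum (f := fun j => |F (φ z.1) j|) (fun j _ => abs_nonneg _)
    (Finset.mem_univ (φ z.2))).trans
    (Finset.single_le_sum (f := fun i => ∑ j, |F i j|)
      (fun i _ => Finset.sum_nonneg fun j _ => abs_nonneg _) (Finset.mem_univ (φ z.1)))

theorem Appr.lin {μ : Measure Ω} [IsProbabilityMeasure μ] {f g : Ω × Ω → ℝ}
    (hf : Appr μ f) (hg : Appr μ g) (hfi : Integrable f (μ.prod μ))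
    (hgi : Integrable g (μ.prod μ)) (a b : ℝ) : Appr μ (fun z => a * f z + b * g z) := by
  intro ε hε
  have ha : 0 < |a| + 1 := by positivity
  have hb : 0 < |b| + 1 := by positivity
  obtain ⟨k, φ, F, hφ, hF⟩ := hf (ε / 2 / (|a| + 1)) (by positivity)
  obtain ⟨l, ψ, G, hψ, hG⟩ := hg (ε / 2 / (|b| + 1)) (by positivity)
  refine ⟨k * l, fun x => finProdFinEquiv (φ x, ψ x),
    fun i j => a * F (finProdFinEquiv.symm i).1 (finProdFinEquiv.symm j).1 +
      b * G (finProdFinEquiv.symm i).2 (finProdFinEquiv.symm j).2,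
    (_root_.measurable_of_finite _).comp (hφ.prodMk hψ), ?_⟩
  simp only [Equiv.symm_apply_apply]
  have h1 : Integrable (fun z : Ω × Ω => |f z - F (φ z.1) (φ z.2)|) (μ.prod μ) :=
    (hfi.sub (int_lab hφ F)).abs
  have h2 : Integrable (fun z : Ω × Ω => |g z - G (ψ z.1) (ψ z.2)|) (μ.prod μ) :=
    (hgi.sub (int_lab hψ G)).abs
  calc ∫ z, |a * f z + b * g z - (a * F (φ z.1) (φ z.2) + b * G (ψ z.1) (ψ z.2))| ∂(μ.prod μ)
      ≤ ∫ z, (|a| * |f z - F (φ z.1) (φ z.2)| + |b| * |g z - G (ψ z.1) (ψ z.2)|) ∂(μ.prod μ) := by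
        refine integral_mono_of_nonneg (Filter.Eventually.of_forall fun z => abs_nonneg _)
          ((h1.const_mul _).add (h2.const_mul _)) (Filter.Eventually.of_forall fun z => ?_)
        show |a * f z + b * g z - (a * F (φ z.1) (φ z.2) + b * G (ψ z.1) (ψ z.2))| ≤
          |a| * |f z - F (φ z.1) (φ z.2)| + |b| * |g z - G (ψ z.1) (ψ z.2)|
        rw [← abs_mul, ← abs_mul]
        refine le_trans (le_of_eq ?_) (abs_add_le _ _)
        congr 1
        ring
    _ = |a| * ∫ z, |f z - F (φ z.1) (φ z.2)| ∂(μ.prod μ) +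
        |b| * ∫ z, |g z - G (ψ z.1) (ψ z.2)| ∂(μ.prod μ) := by
        rw [integral_add (h1.const_mul _) (h2.const_mul _), integral_const_mul,
          integral_const_mul]
    _ < ε := by
        have h3 : |a| * ∫ z, |f z - F (φ z.1) (φ z.2)| ∂(μ.prod μ) ≤
            |a| * (ε / 2 / (|a| + 1)) := mul_le_mul_of_nonneg_left hF.le (abs_nonneg _)
        have h4 : |b| * ∫ z, |g z - G (ψ z.1) (ψ z.2)| ∂(μ.prod μ) ≤
            |b| * (ε / 2 / (|b| + 1)) := mul_le_mul_of_nonneg_left hG.le (abs_nonneg _)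
        have h5 : |a| * (ε / 2 / (|a| + 1)) < ε / 2 := by
          rw [mul_div_assoc', div_lt_iff₀ ha]
          nlinarith [abs_nonneg a]
        have h6 : |b| * (ε / 2 / (|b| + 1)) < ε / 2 := by
          rw [mul_div_assoc', div_lt_iff₀ hb]
          nlinarith [abs_nonneg b]
        linarith

/-- limits in the mean -/
theorem Appr.lim {μ : Measure Ω} [IsProbabilityMeasure μ] {f : Ω × Ω → ℝ}
    (hfi : Integrable f (μ.prod μ))
    (h : ∀ ε : ℝ, 0 < ε → ∃ g : Ω × Ω → ℝ, Appr μ g ∧ Integrable g (μ.prod μ) ∧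
      ∫ z, |f z - g z| ∂(μ.prod μ) < ε) : Appr μ f := by
  intro ε hε
  obtain ⟨g, hg, hgi, h1⟩ := h (ε / 2) (by positivity)
  obtain ⟨k, φ, F, hφ, hF⟩ := hg (ε / 2) (by positivity)
  refine ⟨k, φ, F, hφ, ?_⟩
  have h2 : Integrable (fun z : Ω × Ω => |f z - g z|) (μ.prod μ) := (hfi.sub hgi).abs
  have h3 : Integrable (fun z : Ω × Ω => |g z - F (φ z.1) (φ z.2)|) (μ.prod μ) :=
    (hgi.sub (int_lab hφ F)).abs
  calc ∫ z, |f z - F (φ z.1) (φ z.2)| ∂(μ.prod μ)
      ≤ ∫ z, (|f z - g z| + |g z - F (φ z.1) (φ z.2)|) ∂(μ.prod μ) := by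
        refine integral_mono_of_nonneg (Filter.Eventually.of_forall fun z => abs_nonneg _)
          (h2.add h3) (Filter.Eventually.of_forall fun z => ?_)
        exact abs_sub_le _ _ _
    _ = ∫ z, |f z - g z| ∂(μ.prod μ) + ∫ z, |g z - F (φ z.1) (φ z.2)| ∂(μ.prod μ) :=
        integral_add h2 h3
    _ < ε := by linarith

theorem int_ind {μ : Measure Ω} [IsProbabilityMeasure μ] {E : Set (Ω × Ω)}
    (hE : MeasurableSet E) : Integrable (E.indicator fun _ => (1:ℝ)) (μ.prod μ) :=
  (integrable_const 1).indicator hE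

/-- indicators of measurable sets of the square -/
theorem appr_set (μ : Measure Ω) [IsProbabilityMeasure μ] {E : Set (Ω × Ω)}
    (hE : MeasurableSet E) : Appr μ (E.indicator fun _ => (1:ℝ)) := by
  classical
  induction E, hE using MeasurableSpace.induction_on_inter generateFrom_prod.symm isPiSystem_prod with
  | empty =>
    intro ε hε
    refine ⟨1, fun _ => 0, fun _ _ => 0, measurable_const, ?_⟩
    simp [hε]
  | basic t ht =>
    obtain ⟨A, hA, B, hB, rfl⟩ := ht
    intro ε hε
    refine ⟨4, fun x => (if x ∈ A then 1 else 0) + (if x ∈ B then 2 else 0),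
      fun i j => if (i = 1 ∨ i = 3) ∧ (j = 2 ∨ j = 3) then 1 else 0, ?_, ?_⟩
    · exact (Measurable.ite hA measurable_const measurable_const).add
        (Measurable.ite hB measurable_const measurable_const)
    · have : ∀ z : Ω × Ω, (A ×ˢ B).indicator (fun _ => (1:ℝ)) z -
          (if ((if z.1 ∈ A then (1 : Fin 4) else 0) + (if z.1 ∈ B then 2 else 0) = 1 ∨
            (if z.1 ∈ A then (1 : Fin 4) else 0) + (if z.1 ∈ B then 2 else 0) = 3) ∧
            ((if z.2 ∈ A then (1 : Fin 4) else 0) + (if z.2 ∈ B then 2 else 0) = 2 ∨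
            (if z.2 ∈ A then (1 : Fin 4) else 0) + (if z.2 ∈ B then 2 else 0) = 3)
            then (1:ℝ) else 0) = 0 := by
        intro z
        by_cases h1 : z.1 ∈ A <;> by_cases h2 : z.1 ∈ B <;> by_cases h3 : z.2 ∈ A <;>
          by_cases h4 : z.2 ∈ B <;> simp [Set.indicator, Set.mem_prod, h1, h2, h3, h4]
      simp only [this, abs_zero, integral_zero]
      exact hε
  | compl t ht ih =>
    have h1 : (tᶜ.indicator fun _ => (1:ℝ)) =
        fun z => (1:ℝ) * (Set.univ.indicator (fun _ => (1:ℝ)) z) +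
          (-1) * (t.indicator (fun _ => (1:ℝ)) z) := by
      funext z
      by_cases h : z ∈ t <;> simp [h]
    rw [h1]
    refine Appr.lin ?_ ih (int_ind MeasurableSet.univ) (int_ind ht) _ _
    intro ε hε
    refine ⟨1, fun _ => 0, fun _ _ => 1, measurable_const, ?_⟩
    simp [hε]
  | iUnion f hd hm ih =>
    have hpart : ∀ n, Appr μ ((⋃ i ∈ Finset.range n, f i).indicator fun _ => (1:ℝ)) := by
      intro n
      induction n with
      | zero =>
        intro ε hε
        refine ⟨1, fun _ => 0, fun _ _ => 0, measurable_const, ?_⟩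
        simp [hε]
      | succ n hn =>
        have h1 : ((⋃ i ∈ Finset.range (n + 1), f i).indicator fun _ => (1:ℝ)) =
            fun z => (1:ℝ) * ((⋃ i ∈ Finset.range n, f i).indicator (fun _ => (1:ℝ)) z) +
              1 * ((f n).indicator (fun _ => (1:ℝ)) z) := by
          funext z
          rw [one_mul, one_mul]
          have hdis : Disjoint (⋃ i ∈ Finset.range n, f i) (f n) := by
            rw [Set.disjoint_iUnion₂_left]
            intro i hi
            exact hd (Finset.mem_range.1 hi).ne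
          have : (⋃ i ∈ Finset.range (n + 1), f i) = (⋃ i ∈ Finset.range n, f i) ∪ f n := by
            rw [Finset.range_add_one, Finset.set_biUnion_insert, Set.union_comm]
          rw [this]
          exact congrFun (Set.indicator_union_of_disjoint hdis _) z
        rw [h1]
        refine Appr.lin hn (ih n) (int_ind ?_) (int_ind (hm n)) _ _
        exact Finset.measurableSet_biUnion _ fun i _ => hm i
    refine Appr.lim (int_ind (MeasurableSet.iUnion hm)) fun ε hε => ?_
    have hlim : Filter.Tendsto (fun n => ∫ z, |(⋃ i, f i).indicator (fun _ => (1:ℝ)) z -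
        (⋃ i ∈ Finset.range n, f i).indicator (fun _ => (1:ℝ)) z| ∂(μ.prod μ))
        Filter.atTop (nhds (∫ z, (0:ℝ) ∂(μ.prod μ))) := by
      refine tendsto_integral_of_dominated_convergence (fun _ => (2:ℝ)) (fun n => ?_)
        (integrable_const _) (fun n => ?_) (Filter.Eventually.of_forall fun z => ?_)
      · refine (((int_ind (MeasurableSet.iUnion hm)).sub (int_ind ?_)).abs).aestronglyMeasurable
        exact Finset.measurableSet_biUnion _ fun i _ => hm i
      · refine Filter.Eventually.of_forall fun z => ?_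
        rw [Real.norm_eq_abs, abs_abs]
        have h0 : ∀ (E : Set (Ω × Ω)), 0 ≤ E.indicator (fun _ => (1:ℝ)) z ∧
            E.indicator (fun _ => (1:ℝ)) z ≤ 1 := fun E =>
          ⟨Set.indicator_nonneg (fun _ _ => zero_le_one) _,
            Set.indicator_le_self' (fun _ _ => zero_le_one) _⟩
        have h1 := h0 (⋃ i, f i)
        have h2 := h0 (⋃ i ∈ Finset.range n, f i)
        rw [abs_le]
        constructor <;> linarith [h1.1, h1.2, h2.1, h2.2]
      · by_cases hz : z ∈ ⋃ i, f i
        · obtain ⟨i, hi⟩ := Set.mem_iUnion.1 hz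
          refine tendsto_const_nhds.congr' ?_
          filter_upwards [Filter.eventually_gt_atTop i] with n hn
          have h1 : z ∈ ⋃ i ∈ Finset.range n, f i :=
            Set.mem_biUnion (Finset.mem_coe.2 (Finset.mem_range.2 hn)) hi
          rw [Set.indicator_of_mem hz, Set.indicator_of_mem h1]
          simp
        · refine tendsto_const_nhds.congr fun n => ?_
          have h1 : z ∉ ⋃ i ∈ Finset.range n, f i := by
            intro h
            obtain ⟨i, hi⟩ := Set.mem_iUnion.1 h
            obtain ⟨_, hi⟩ := Set.mem_iUnion.1 hi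
            exact hz (Set.mem_iUnion.2 ⟨i, hi⟩)
          rw [Set.indicator_of_notMem hz, Set.indicator_of_notMem h1]
          simp
    rw [integral_zero] at hlim
    obtain ⟨n, hn⟩ := (hlim.eventually (gt_mem_nhds hε)).exists
    exact ⟨_, hpart n, int_ind (Finset.measurableSet_biUnion _ fun i _ => hm i), hn⟩

end H774

end Vale.Agent.P050.Opt
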