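import Vale.Agent.P050.O.H774.Part

set_option linter.all false

/-!
Measurable kernels: averages over finite partitions, and the limit.
-/

open MeasureTheory Finset

namespace Vale.Agent.P050.Opt

open Vale.Agent.P050 Vale.Agent.P050.Dense Vale.Agent.P050.H753

namespace H774

section square

variable {Ω : Type*} [MeasurableSpace Ω]

theorem Appr.sum {μ : Measure Ω} [IsProbabilityMeasure μ] {ι : Type*} (s : Finset ι)
    (f : ι → Ω × Ω → ℝ) (hf : ∀ i ∈ s, Appr μ (f i)) (hfi : ∀ i ∈ s, Integrable (f i) (μ.prod μ)) :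
    Appr μ (fun z => ∑ i ∈ s, f i z) := by
  classical
  induction s using Finset.induction_on with
  | empty =>
    intro ε hε
    refine ⟨1, fun _ => 0, fun _ _ => 0, measurable_const, ?_⟩
    simp [hε]
  | insert a s ha ih =>
    have h1 : (fun z => ∑ i ∈ insert a s, f i z) =
        fun z => (1:ℝ) * f a z + 1 * ∑ i ∈ s, f i z := by
      funext z
      rw [Finset.sum_insert ha, one_mul, one_mul]
    rw [h1]
    exact Appr.lin (hf a (Finset.mem_insert_self a s))
      (ih (fun i hi => hf i (Finset.mem_insert_of_mem hi))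
        fun i hi => hfi i (Finset.mem_insert_of_mem hi)) (hfi a (Finset.mem_insert_self a s))
      (integrable_finset_sum s fun i hi => hfi i (Finset.mem_insert_of_mem hi)) _ _

/-- bounded measurable functions -/
theorem appr_bdd (μ : Measure Ω) [IsProbabilityMeasure μ] {f : Ω × Ω → ℝ} (hf : BM f) :
    Appr μ f := by
  classical
  obtain ⟨C, hC⟩ := hf.bdd
  refine Appr.lim (hf.integrable _) fun ε hε => ?_
  obtain ⟨n, hn⟩ := exists_nat_gt (1 / ε)
  have hn0 : (0:ℝ) < n := lt_trans (by positivity) hn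
  obtain ⟨K, hK⟩ := exists_nat_gt (n * C + 1)
  have hfl : ∀ k : ℤ, MeasurableSet {z | ⌊n * f z⌋ = k} := by
    intro k
    exact (Int.measurable_floor.comp (hf.meas.const_mul (n:ℝ))) (measurableSet_singleton k)
  set g : Ω × Ω → ℝ := fun z => ∑ k ∈ Finset.Icc (-(K:ℤ)) K,
    ((k:ℝ) / n) * ({z | ⌊n * f z⌋ = k}.indicator (fun _ => (1:ℝ)) z) with hg
  have hgz : ∀ z, g z = (⌊n * f z⌋ : ℝ) / n := by
    intro z
    simp only [hg]
    rw [Finset.sum_eq_single ⌊n * f z⌋]
    · rw [Set.indicator_of_mem (by rfl), mul_one]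
    · intro k _ hk
      rw [Set.indicator_of_notMem (fun h => hk (by simpa using h.symm)), mul_zero]
    · intro h
      exfalso
      apply h
      have h1 := abs_le.1 (hC z)
      rw [Finset.mem_Icc]
      constructor
      · rw [Int.le_floor]
        push_cast
        nlinarith [h1.1, h1.2]
      · have h2 := Int.floor_le (n * f z)
        have h3 : (⌊n * f z⌋ : ℝ) ≤ K := by nlinarith [h1.1, h1.2]
        exact_mod_cast h3
  refine ⟨g, ?_, ?_, ?_⟩
  · refine Appr.sum _ _ (fun k _ => ?_) fun k _ => (int_ind (hfl k)).const_mul _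
    have h1 : (fun z => ((k:ℝ) / n) * ({z | ⌊n * f z⌋ = k}.indicator (fun _ => (1:ℝ)) z)) =
        fun z => ((k:ℝ) / n) * ({z | ⌊n * f z⌋ = k}.indicator (fun _ => (1:ℝ)) z) +
          0 * ({z | ⌊n * f z⌋ = k}.indicator (fun _ => (1:ℝ)) z) := by
      funext z
      rw [zero_mul, add_zero]
    rw [h1]
    exact Appr.lin (appr_set μ (hfl k)) (appr_set μ (hfl k)) (int_ind (hfl k))
      (int_ind (hfl k)) _ _
  · exact integrable_finset_sum _ fun k _ => (int_ind (hfl k)).const_mul _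
  · have h1 : ∀ z, |f z - g z| ≤ 1 / n := by
      intro z
      rw [hgz z]
      have h2 := Int.floor_le (n * f z)
      have h3 := Int.lt_floor_add_one (n * f z)
      have h4 : f z - (⌊n * f z⌋ : ℝ) / n = (n * f z - ⌊n * f z⌋) / n := by
        field_simp
      rw [h4, abs_div, abs_of_pos hn0]
      apply div_le_div_of_nonneg_right _ hn0.le
      rw [abs_le]
      constructor <;> linarith
    calc ∫ z, |f z - g z| ∂(μ.prod μ) ≤ ∫ z, (1 / n : ℝ) ∂(μ.prod μ) :=
          integral_mono_of_nonneg (Filter.Eventually.of_forall fun z => abs_nonneg _)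
            (integrable_const _) (Filter.Eventually.of_forall h1)
      _ = 1 / n := by simp
      _ < ε := by
          rw [div_lt_iff₀ hn0]
          rw [div_lt_iff₀ hε] at hn
          linarith

/-- sums over the cells of a partition -/
theorem sum_cells {μ : Measure Ω} [IsProbabilityMeasure μ] {k : ℕ} {φ : Ω → Fin k}
    (hφ : Measurable φ) {g : Ω × Ω → ℝ} (hg : Integrable g (μ.prod μ)) :
    ∫ z, g z ∂(μ.prod μ) =
      ∑ i, ∑ j, ∫ z in (φ ⁻¹' {i}) ×ˢ (φ ⁻¹' {j}), g z ∂(μ.prod μ) := by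
  classical
  have hcell : ∀ i j, MeasurableSet ((φ ⁻¹' {i}) ×ˢ (φ ⁻¹' {j})) := fun i j =>
    (hφ (measurableSet_singleton i)).prod (hφ (measurableSet_singleton j))
  have h1 : ∀ z, g z = ∑ i, ∑ j, ((φ ⁻¹' {i}) ×ˢ (φ ⁻¹' {j})).indicator g z := by
    intro z
    rw [Finset.sum_eq_single (φ z.1), Finset.sum_eq_single (φ z.2)]
    · rw [Set.indicator_of_mem (by simp)]
    · intro j _ hj
      refine Set.indicator_of_notMem (fun h => hj ?_) _
      have := (Set.mem_prod.1 h).2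
      simpa using this.symm
    · intro h; exact absurd (Finset.mem_univ _) h
    · intro i _ hi
      refine Finset.sum_eq_zero fun j _ => ?_
      refine Set.indicator_of_notMem (fun h => hi ?_) _
      have := (Set.mem_prod.1 h).1
      simpa using this.symm
    · intro h; exact absurd (Finset.mem_univ _) h
  calc ∫ z, g z ∂(μ.prod μ)
      = ∫ z, ∑ i, ∑ j, ((φ ⁻¹' {i}) ×ˢ (φ ⁻¹' {j})).indicator g z ∂(μ.prod μ) :=
        integral_congr_ae (Filter.Eventually.of_forall h1)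
    _ = _ := by
        rw [integral_finset_sum _ fun i _ => integrable_finset_sum _ fun j _ =>
          hg.indicator (hcell i j)]
        refine Finset.sum_congr rfl fun i _ => ?_
        rw [integral_finset_sum _ fun j _ => hg.indicator (hcell i j)]
        refine Finset.sum_congr rfl fun j _ => ?_
        rw [integral_indicator (hcell i j)]

/-- a function of the labels on a cell -/
theorem cell_lab {μ : Measure Ω} [IsProbabilityMeasure μ] {k : ℕ} {φ : Ω → Fin k}
    (hφ : Measurable φ) (F : Fin k → Fin k → ℝ) (i j : Fin k) :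
    ∫ z in (φ ⁻¹' {i}) ×ˢ (φ ⁻¹' {j}), F (φ z.1) (φ z.2) ∂(μ.prod μ) =
      μ.real (φ ⁻¹' {i}) * μ.real (φ ⁻¹' {j}) * F i j := by
  have h1 : ∫ z in (φ ⁻¹' {i}) ×ˢ (φ ⁻¹' {j}), F (φ z.1) (φ z.2) ∂(μ.prod μ) =
      ∫ z in (φ ⁻¹' {i}) ×ˢ (φ ⁻¹' {j}), F i j ∂(μ.prod μ) := by
    refine setIntegral_congr_fun ((hφ (measurableSet_singleton i)).prod
      (hφ (measurableSet_singleton j))) fun z hz => ?_
    obtain ⟨h1, h2⟩ := Set.mem_prod.1 hz
    rw [Set.mem_preimage, Set.mem_singleton_iff] at h1 h2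
    show F (φ z.1) (φ z.2) = F i j
    rw [h1, h2]
  rw [h1, setIntegral_const, measureReal_prod_prod, smul_eq_mul]

end square

section avg

variable {Ω : Type*} [MeasurableSpace Ω]

/-- the average of the kernel over a cell -/
noncomputable def avg (μ : Measure Ω) (W : Ω → Ω → ℝ) {k : ℕ} (φ : Ω → Fin k) (i j : Fin k) : ℝ :=
  (∫ z in (φ ⁻¹' {i}) ×ˢ (φ ⁻¹' {j}), W z.1 z.2 ∂(μ.prod μ)) /
    (μ.real (φ ⁻¹' {i}) * μ.real (φ ⁻¹' {j}))

variable {μ : Measure Ω} [IsProbabilityMeasure μ] {W : Ω → Ω → ℝ} {k : ℕ} {φ : Ω → Fin k}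

theorem avg_nonneg (h0 : ∀ s t, 0 ≤ W s t) (i j : Fin k) : 0 ≤ avg μ W φ i j :=
  div_nonneg (integral_nonneg fun z => h0 _ _) (by positivity)

theorem avg_symm (hW : ∀ s t, W s t = W t s) (i j : Fin k) : avg μ W φ i j = avg μ W φ j i := by
  unfold avg
  rw [mul_comm (μ.real (φ ⁻¹' {i}))]
  congr 1
  rw [← Measure.prod_restrict, ← Measure.prod_restrict,
    ← integral_prod_swap (μ := μ.restrict (φ ⁻¹' {j})) (ν := μ.restrict (φ ⁻¹' {i}))
      (fun z => W z.1 z.2)]
  refine integral_congr_ae (Filter.Eventually.of_forall fun z => ?_)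
  exact hW _ _

theorem mul_avg (hb : BM (Function.uncurry W)) (i j : Fin k) :
    μ.real (φ ⁻¹' {i}) * μ.real (φ ⁻¹' {j}) * avg μ W φ i j =
      ∫ z in (φ ⁻¹' {i}) ×ˢ (φ ⁻¹' {j}), W z.1 z.2 ∂(μ.prod μ) := by
  unfold avg
  rcases eq_or_ne (μ.real (φ ⁻¹' {i}) * μ.real (φ ⁻¹' {j})) 0 with h | h
  · rw [h, zero_mul]
    symm
    apply setIntegral_measure_zero
    rw [← measureReal_prod_prod, measureReal_eq_zero_iff] at h
    exact h
  · rw [mul_div_cancel₀ _ h]

theorem avg_le (hb : BM (Function.uncurry W)) {C : ℝ} (hC0 : 0 ≤ C) (hC : ∀ s t, W s t ≤ C)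
    (i j : Fin k) : avg μ W φ i j ≤ C := by
  unfold avg
  refine div_le_of_le_mul₀ (by positivity) hC0 ?_
  calc ∫ z in (φ ⁻¹' {i}) ×ˢ (φ ⁻¹' {j}), W z.1 z.2 ∂(μ.prod μ)
      ≤ ∫ z in (φ ⁻¹' {i}) ×ˢ (φ ⁻¹' {j}), C ∂(μ.prod μ) :=
        integral_mono (hb.integrable _) (integrable_const _) fun z => hC _ _
    _ = C * (μ.real (φ ⁻¹' {i}) * μ.real (φ ⁻¹' {j})) := by
        rw [setIntegral_const, measureReal_prod_prod, smul_eq_mul, mul_comm]

/-- the average is a best approximation up to a factor two -/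
theorem dist_avg (hb : BM (Function.uncurry W)) (hφ : Measurable φ) (F : Fin k → Fin k → ℝ) :
    ∫ z, |W z.1 z.2 - avg μ W φ (φ z.1) (φ z.2)| ∂(μ.prod μ) ≤
      2 * ∫ z, |W z.1 z.2 - F (φ z.1) (φ z.2)| ∂(μ.prod μ) := by
  have hWi : Integrable (fun z : Ω × Ω => W z.1 z.2) (μ.prod μ) := hb.integrable _
  have h1 : Integrable (fun z : Ω × Ω => |W z.1 z.2 - F (φ z.1) (φ z.2)|) (μ.prod μ) :=
    (hWi.sub (int_lab hφ F)).abs
  have h2 : Integrable (fun z : Ω × Ω => |F (φ z.1) (φ z.2) - avg μ W φ (φ z.1) (φ z.2)|)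
      (μ.prod μ) := ((int_lab hφ F).sub (int_lab hφ _)).abs
  have h3 : ∫ z, |F (φ z.1) (φ z.2) - avg μ W φ (φ z.1) (φ z.2)| ∂(μ.prod μ) ≤
      ∫ z, |W z.1 z.2 - F (φ z.1) (φ z.2)| ∂(μ.prod μ) := by
    rw [sum_cells hφ h2, sum_cells hφ h1]
    refine Finset.sum_le_sum fun i _ => Finset.sum_le_sum fun j _ => ?_
    rw [cell_lab hφ (fun i j => |F i j - avg μ W φ i j|) i j]
    have h4 : μ.real (φ ⁻¹' {i}) * μ.real (φ ⁻¹' {j}) * |F i j - avg μ W φ i j| =
        |∫ z in (φ ⁻¹' {i}) ×ˢ (φ ⁻¹' {j}), (W z.1 z.2 - F (φ z.1) (φ z.2)) ∂(μ.prod μ)| := by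
      rw [integral_sub hWi.integrableOn (int_lab hφ F).integrableOn, cell_lab hφ, ← mul_avg hb,
        ← mul_sub, abs_mul, abs_of_nonneg (by positivity :
          (0:ℝ) ≤ μ.real (φ ⁻¹' {i}) * μ.real (φ ⁻¹' {j})), abs_sub_comm]
    rw [h4]
    exact abs_integral_le_integral_abs
  calc ∫ z, |W z.1 z.2 - avg μ W φ (φ z.1) (φ z.2)| ∂(μ.prod μ)
      ≤ ∫ z, (|W z.1 z.2 - F (φ z.1) (φ z.2)| +
          |F (φ z.1) (φ z.2) - avg μ W φ (φ z.1) (φ z.2)|) ∂(μ.prod μ) :=
        integral_mono_of_nonneg (Filter.Eventually.of_forall fun z => abs_nonneg _)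
          (h1.add h2) (Filter.Eventually.of_forall fun z => abs_sub_le _ _ _)
    _ = ∫ z, |W z.1 z.2 - F (φ z.1) (φ z.2)| ∂(μ.prod μ) +
          ∫ z, |F (φ z.1) (φ z.2) - avg μ W φ (φ z.1) (φ z.2)| ∂(μ.prod μ) :=
        integral_add h1 h2
    _ ≤ _ := by linarith

/-- the averages over finite partitions converge in the mean -/
theorem exists_avg (μ : Measure Ω) [IsProbabilityMeasure μ] (hb : BM (Function.uncurry W))
    {ε : ℝ} (hε : 0 < ε) : ∃ (k : ℕ) (φ : Ω → Fin k), Measurable φ ∧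
      ∫ z, |W z.1 z.2 - avg μ W φ (φ z.1) (φ z.2)| ∂(μ.prod μ) < ε := by
  obtain ⟨k, φ, F, hφ, hF⟩ := appr_bdd μ hb (ε / 2) (by positivity)
  refine ⟨k, φ, hφ, (dist_avg hb hφ F).trans_lt ?_⟩
  have : ∫ z, |W z.1 z.2 - F (φ z.1) (φ z.2)| ∂(μ.prod μ) < ε / 2 := hF
  linarith

end avg

section limit

theorem prod_diff {ι : Type*} (s : Finset ι) (a b : ι → ℝ) {C : ℝ} (hC : 1 ≤ C)
    (ha : ∀ i ∈ s, |a i| ≤ C) (hb : ∀ i ∈ s, |b i| ≤ C) :
    |∏ i ∈ s, a i - ∏ i ∈ s, b i| ≤ C ^ s.card * ∑ i ∈ s, |a i - b i| := by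
  classical
  induction s using Finset.induction_on with
  | empty => simp
  | insert e s he ih =>
    have ih' := ih (fun i hi => ha i (Finset.mem_insert_of_mem hi))
      fun i hi => hb i (Finset.mem_insert_of_mem hi)
    rw [Finset.prod_insert he, Finset.prod_insert he, Finset.sum_insert he,
      Finset.card_insert_of_notMem he]
    have h1 : |∏ i ∈ s, a i| ≤ C ^ s.card := by
      rw [Finset.abs_prod, ← Finset.prod_const]
      exact Finset.prod_le_prod (fun i _ => abs_nonneg _)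
        fun i hi => ha i (Finset.mem_insert_of_mem hi)
    have h2 : |b e| ≤ C := hb e (Finset.mem_insert_self e s)
    have hCp : 1 ≤ C ^ s.card := one_le_pow₀ hC
    have h3 : a e * ∏ i ∈ s, a i - b e * ∏ i ∈ s, b i =
        (a e - b e) * ∏ i ∈ s, a i + b e * (∏ i ∈ s, a i - ∏ i ∈ s, b i) := by ring
    rw [h3]
    have hS : 0 ≤ ∑ i ∈ s, |a i - b i| := Finset.sum_nonneg fun i _ => abs_nonneg _
    calc |(a e - b e) * ∏ i ∈ s, a i + b e * (∏ i ∈ s, a i - ∏ i ∈ s, b i)|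
        ≤ |a e - b e| * |∏ i ∈ s, a i| + |b e| * |∏ i ∈ s, a i - ∏ i ∈ s, b i| := by
          refine (abs_add_le _ _).trans (le_of_eq ?_)
          rw [abs_mul, abs_mul]
      _ ≤ |a e - b e| * (C * C ^ s.card) + C * (C ^ s.card * ∑ i ∈ s, |a i - b i|) := by
          refine add_le_add ?_ ?_
          · refine mul_le_mul_of_nonneg_left (h1.trans ?_) (abs_nonneg _)
            nlinarith
          · exact mul_le_mul h2 ih' (abs_nonneg _) (by linarith)
      _ = C ^ (s.card + 1) * (|a e - b e| + ∑ i ∈ s, |a i - b i|) := by ring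

variable {V : Type*} [Fintype V] [DecidableEq V] {Ω : Type*} [MeasurableSpace Ω]

theorem bm_ev {W : Ω → Ω → ℝ} (hs : ∀ s t, W s t = W t s) (hb : BM (Function.uncurry W))
    (e : Sym2 V) : BM (fun x : V → Ω => ev W hs x e) := by
  induction e with
  | h u v => exact bm_pair hb u v

/-- the densities in two kernels close in the mean -/
theorem dens_diff (H : SimpleGraph V) [DecidableRel H.Adj] (μ : Measure Ω)
    [IsProbabilityMeasure μ] {W K : Ω → Ω → ℝ} (hW : ∀ s t, W s t = W t s)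
    (hK : ∀ s t, K s t = K t s) (hWm : Measurable (Function.uncurry W))
    (hKm : Measurable (Function.uncurry K)) {C : ℝ} (hC : 1 ≤ C) (hWC : ∀ s t, |W s t| ≤ C)
    (hKC : ∀ s t, |K s t| ≤ C) :
    |∫ x, ∏ e ∈ H.edgeFinset, ev W hW x e ∂(piM V μ) -
      ∫ x, ∏ e ∈ H.edgeFinset, ev K hK x e ∂(piM V μ)| ≤
      C ^ H.edgeFinset.card * (H.edgeFinset.card * ∫ z, |W z.1 z.2 - K z.1 z.2| ∂(μ.prod μ)) := by
  have hbW : BM (Function.uncurry W) := ⟨hWm, C, fun z => hWC _ _⟩
  have hbK : BM (Function.uncurry K) := ⟨hKm, C, fun z => hKC _ _⟩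
  have h1 : BM (fun x : V → Ω => ∏ e ∈ H.edgeFinset, ev W hW x e) :=
    BM.finprod _ fun e _ => bm_ev hW hbW e
  have h2 : BM (fun x : V → Ω => ∏ e ∈ H.edgeFinset, ev K hK x e) :=
    BM.finprod _ fun e _ => bm_ev hK hbK e
  have h3 : ∀ e : Sym2 V, BM (fun x : V → Ω => |ev W hW x e - ev K hK x e|) := fun e =>
    ((bm_ev hW hbW e).sub (bm_ev hK hbK e)).abs
  rw [← integral_sub (h1.integrable _) (h2.integrable _)]
  have h4 : ∀ e ∈ H.edgeFinset, ∫ x, |ev W hW x e - ev K hK x e| ∂(piM V μ) =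
      ∫ z, |W z.1 z.2 - K z.1 z.2| ∂(μ.prod μ) := by
    intro e he
    induction e with
    | h u v =>
      have huv : u ≠ v := by
        rw [SimpleGraph.mem_edgeFinset, SimpleGraph.mem_edgeSet] at he
        exact he.ne
      have hbd : BM (Function.uncurry fun s t => |W s t - K s t|) := (hbW.sub hbK).abs
      have h5 := integral_eval2 μ huv hbd
      rw [integral_prod (f := fun z : Ω × Ω => |W z.1 z.2 - K z.1 z.2|) (hbd.integrable _)]
      exact h5
  calc |∫ x, (∏ e ∈ H.edgeFinset, ev W hW x e - ∏ e ∈ H.edgeFinset, ev K hK x e) ∂(piM V μ)|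
      ≤ ∫ x, |∏ e ∈ H.edgeFinset, ev W hW x e - ∏ e ∈ H.edgeFinset, ev K hK x e| ∂(piM V μ) :=
        abs_integral_le_integral_abs
    _ ≤ ∫ x, C ^ H.edgeFinset.card * ∑ e ∈ H.edgeFinset, |ev W hW x e - ev K hK x e|
          ∂(piM V μ) := by
        refine integral_mono ((h1.sub h2).abs.integrable _)
          (((BM.finsum _ fun e _ => h3 e).integrable _).const_mul _) fun x => ?_
        refine prod_diff _ _ _ hC (fun e _ => ?_) fun e _ => ?_
        · induction e with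
          | h u v => exact hWC _ _
        · induction e with
          | h u v => exact hKC _ _
    _ = _ := by
        rw [integral_const_mul, integral_finset_sum _ fun e _ => (h3 e).integrable _,
          Finset.sum_congr rfl h4, Finset.sum_const, nsmul_eq_mul]

/-- lower bounds for the densities in all averages over finite partitions hold for the kernel -/
theorem of_avg (H : SimpleGraph V) [DecidableRel H.Adj] (μ : Measure Ω)
    [IsProbabilityMeasure μ] {W : Ω → Ω → ℝ} (hW : ∀ s t, W s t = W t s)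
    (hm : Measurable (Function.uncurry W)) {C : ℝ} (hb : ∀ s t, 0 ≤ W s t ∧ W s t ≤ C) {c : ℝ}
    (h : ∀ (k : ℕ) (φ : Ω → Fin k), Measurable φ →
      c ≤ ∫ x, ∏ e ∈ H.edgeFinset, ev (fun s t => avg μ W φ (φ s) (φ t))
        (fun s t => avg_symm hW _ _) x e ∂(piM V μ)) :
    c ≤ ∫ x, ∏ e ∈ H.edgeFinset, ev W hW x e ∂(piM V μ) := by
  have hC0 : 0 ≤ max C 1 := zero_le_one.trans (le_max_right _ _)
  have hbm : BM (Function.uncurry W) := ⟨hm, C, fun z => by
    rw [abs_le]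
    exact ⟨by have := hb z.1 z.2; simp only [Function.uncurry]; linarith, (hb z.1 z.2).2⟩⟩
  set m := H.edgeFinset.card with hmdef
  refine le_of_forall_pos_le_add fun ε hε => ?_
  have hM : 0 < (max C 1) ^ m * m + 1 := by positivity
  obtain ⟨k, φ, hφ, hd⟩ := exists_avg μ hbm (ε := ε / ((max C 1) ^ m * m + 1)) (by positivity)
  have h1 := dens_diff H μ hW (K := fun s t => avg μ W φ (φ s) (φ t))
    (fun s t => avg_symm hW _ _) hm (meas_lab hφ (avg μ W φ)) (C := max C 1) (le_max_right _ _)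
    (fun s t => by
      rw [abs_of_nonneg (hb s t).1]
      exact (hb s t).2.trans (le_max_left _ _))
    (fun s t => by
      rw [abs_of_nonneg (avg_nonneg (fun s t => (hb s t).1) _ _)]
      exact avg_le hbm hC0 (fun s t => (hb s t).2.trans (le_max_left _ _)) _ _)
  have h2 := (abs_le.1 h1).1
  have h3 := h k φ hφ
  have h4 : (max C 1) ^ m * (m * ∫ z, |W z.1 z.2 - avg μ W φ (φ z.1) (φ z.2)| ∂(μ.prod μ)) ≤ ε := by
    have h5 : 0 ≤ ∫ z, |W z.1 z.2 - avg μ W φ (φ z.1) (φ z.2)| ∂(μ.prod μ) :=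
      integral_nonneg fun z => abs_nonneg _
    calc _ = ((max C 1) ^ m * m) * ∫ z, |W z.1 z.2 - avg μ W φ (φ z.1) (φ z.2)| ∂(μ.prod μ) := by
          ring
      _ ≤ ((max C 1) ^ m * m + 1) * (ε / ((max C 1) ^ m * m + 1)) := by
          refine mul_le_mul (by linarith) hd.le h5 hM.le
      _ = ε := mul_div_cancel₀ _ hM.ne'
  linarith

/-- the same for the density of the kernel -/
theorem kd_of_avg {V Ω : Type} [Fintype V] [DecidableEq V] [MeasurableSpace Ω]
    (H : SimpleGraph V) [DecidableRel H.Adj] (μ : Measure Ω)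
    [IsProbabilityMeasure μ] {W : Ω → Ω → ℝ} (hW : ∀ s t, W s t = W t s)
    (hm : Measurable (Function.uncurry W)) {C : ℝ} (hb : ∀ s t, 0 ≤ W s t ∧ W s t ≤ C) {c : ℝ}
    (h : ∀ (k : ℕ) (φ : Ω → Fin k), Measurable φ →
      c ≤ ∫ x, ∏ e ∈ H.edgeFinset, ev (fun s t => avg μ W φ (φ s) (φ t))
        (fun s t => avg_symm hW _ _) x e ∂(piM V μ)) :
    c ≤ kernelDensity μ H W hW :=
  of_avg H μ hW hm hb h

end limit

end H774

end Vale.Agent.P050.Opt
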