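import Vale.Agent.P050.O.H774.UnifAll
import Vale.Agent.P050.O.H234.CrossUnif

set_option linter.all false

/-!
Long subdivisions, all lengths, uniformly in targets of arbitrary size: no hypotheses.
-/

open MeasureTheory Finset

namespace Vale.Agent.P050.Opt.H774

open Vale.Agent.P050 Vale.Agent.P050.Dense Vale.Agent.P050.Opt

theorem stCross : StCross := fun N K hK ε hε => H234.cross_unif N hK hε

/-- **Long subdivisions**, all lengths, against graphs with an arbitrary number `n` of vertices:
any two vertices which are joined by a walk of positive even length are joined by at least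
`δ * n ^ (2 * j - 1)` walks of length `2 * j` -/
theorem long_unif_all {j : ℕ} (hj : 1 ≤ j) {δ : ℝ} (hδ : 0 < δ) (D : ℕ) :
    ∃ L : ℕ, ∀ ℓ ≥ L, ∀ (X : Type) [Finite X] [Nonempty X] (G : SimpleGraph X),
      (∀ x y, (∃ q : G.Walk x y, Even q.length ∧ q.length ≠ 0) →
        δ * (Nat.card X : ℝ) ^ (2 * j - 1) ≤ Nat.card {q : G.Walk x y // q.length = 2 * j}) →
      ∀ (V : Type) [Finite V] (F : SimpleGraph V), (∀ v, (F.neighborSet v).ncard ≤ D) →
      (subdiv ℓ F).IsBipartite →
      edgeDensity G ^ Nat.card (subdiv ℓ F).edgeSet ≤ homDensity (subdiv ℓ F) G :=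
  long_unif_all_of stCross hj hδ D

end Vale.Agent.P050.Opt.H774
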